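import Claimed.Agent.R302.VN.Proj

/-!
# R302 / VN toolkit, file 7: commutants as von Neumann algebras, the bicommutant theorem

Owner: helper268.
* `vn_commutantOf S`: the commutant of `S ∪ S*` as a `VonNeumannAlgebra`;
* `vn_gen S`: the von Neumann algebra generated by `S` (the bicommutant of `S ∪ S*`);
* `vn_bicommutant`: a unital `*`-subalgebra is strongly dense in its bicommutant.
-/

set_option autoImplicit false
set_option linter.unusedSectionVars false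

open scoped InnerProductSpace ComplexOrder
open Filter Topology

namespace Claimed.Agent.R302

variable {H : Type*} [NormedAddCommGroup H] [InnerProductSpace ℂ H] [CompleteSpace H]

/-- The commutant of `S ∪ S*` as a von Neumann algebra. -/
noncomputable def vn_commutantOf (S : Set (H →L[ℂ] H)) : VonNeumannAlgebra H where
  toStarSubalgebra := StarSubalgebra.centralizer ℂ S
  centralizer_centralizer' := Set.centralizer_centralizer_centralizer _

theorem vn_mem_commutantOf {S : Set (H →L[ℂ] H)} {y : H →L[ℂ] H} :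
    y ∈ vn_commutantOf S ↔ ∀ a ∈ S, Commute y a ∧ Commute y (star a) := by
  have h : y ∈ vn_commutantOf S ↔ y ∈ StarSubalgebra.centralizer ℂ S := Iff.rfl
  rw [h, StarSubalgebra.mem_centralizer_iff]
  constructor
  · intro h a ha
    exact ⟨(h a ha).1.symm, (h a ha).2.symm⟩
  · intro h a ha
    exact ⟨(h a ha).1.eq.symm, (h a ha).2.eq.symm⟩

/-- For a `*`-closed set. -/
theorem vn_mem_commutantOf' {S : Set (H →L[ℂ] H)} (hS : ∀ a ∈ S, star a ∈ S) {y : H →L[ℂ] H} :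
    y ∈ vn_commutantOf S ↔ ∀ a ∈ S, Commute y a := by
  rw [vn_mem_commutantOf]
  exact ⟨fun h a ha => (h a ha).1, fun h a ha => ⟨h a ha, h _ (hS a ha)⟩⟩

/-- The von Neumann algebra generated by `S`. -/
noncomputable def vn_gen (S : Set (H →L[ℂ] H)) : VonNeumannAlgebra H := (vn_commutantOf S).commutant

theorem vn_mem_gen_iff {S : Set (H →L[ℂ] H)} {x : H →L[ℂ] H} :
    x ∈ vn_gen S ↔ ∀ y, (∀ a ∈ S, Commute y a ∧ Commute y (star a)) → Commute y x := by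
  rw [vn_gen, VonNeumannAlgebra.mem_commutant_iff]
  constructor
  · intro h y hy
    exact h y (vn_mem_commutantOf.2 hy)
  · intro h y hy
    exact h y (vn_mem_commutantOf.1 hy)

theorem vn_subset_gen (S : Set (H →L[ℂ] H)) : S ⊆ vn_gen S := by
  intro a ha
  exact vn_mem_gen_iff.2 fun y hy => (hy a ha).1

theorem vn_gen_le {S : Set (H →L[ℂ] H)} {M : VonNeumannAlgebra H} (h : S ⊆ M) : vn_gen S ≤ M := by
  intro x hx
  rw [vn_mem_iff_commute]
  intro y hy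
  refine vn_mem_gen_iff.1 hx y fun a ha => ?_
  exact ⟨(vn_mem_iff_commute M a).1 (h ha) y hy, (vn_mem_iff_commute M _).1 (star_mem (h ha)) y hy⟩

theorem vn_commutant_gen (S : Set (H →L[ℂ] H)) : (vn_gen S).commutant = vn_commutantOf S :=
  VonNeumannAlgebra.commutant_commutant _

/-- `M ≤ N → N' ≤ M'`. -/
theorem vn_commutant_anti {M N : VonNeumannAlgebra H} (h : M ≤ N) : N.commutant ≤ M.commutant := by
  intro y hy
  rw [VonNeumannAlgebra.mem_commutant_iff] at hy ⊢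
  exact fun g hg => hy g (h hg)

/-- The intersection of two von Neumann algebras. -/
noncomputable def vn_inf (M N : VonNeumannAlgebra H) : VonNeumannAlgebra H :=
  vn_commutantOf ((M.commutant : Set (H →L[ℂ] H)) ∪ (N.commutant : Set (H →L[ℂ] H)))

theorem vn_mem_inf {M N : VonNeumannAlgebra H} {x : H →L[ℂ] H} :
    x ∈ vn_inf M N ↔ x ∈ M ∧ x ∈ N := by
  rw [vn_inf, vn_mem_commutantOf', vn_mem_iff_commute M, vn_mem_iff_commute N]
  · constructor
    · intro h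
      exact ⟨fun y hy => (h y (Or.inl hy)).symm, fun y hy => (h y (Or.inr hy)).symm⟩
    · rintro ⟨h1, h2⟩ y (hy | hy)
      · exact (h1 y hy).symm
      · exact (h2 y hy).symm
  · rintro a (ha | ha)
    · exact Or.inl (star_mem ha)
    · exact Or.inr (star_mem ha)

/-- The subspace `S ξ`. -/
def vn_orbitOf (S : StarSubalgebra ℂ (H →L[ℂ] H)) (ξ : H) : Submodule ℂ H where
  carrier := {η | ∃ a ∈ S, a ξ = η}
  add_mem' := by
    rintro _ _ ⟨x, hx, rfl⟩ ⟨y, hy, rfl⟩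
    exact ⟨x + y, add_mem hx hy, by simp⟩
  zero_mem' := ⟨0, zero_mem _, by simp⟩
  smul_mem' := by
    rintro c _ ⟨x, hx, rfl⟩
    exact ⟨c • x, S.smul_mem hx c, by simp⟩

/-- **The bicommutant theorem** (one vector): `x ξ` lies in the closure of `S ξ`. -/
theorem vn_bicommutant_one (S : StarSubalgebra ℂ (H →L[ℂ] H)) {x : H →L[ℂ] H}
    (hx : x ∈ vn_gen (S : Set (H →L[ℂ] H))) (ξ : H) {ε : ℝ} (hε : 0 < ε) :
    ∃ a ∈ S, ‖(x - a) ξ‖ < ε := by
  set K := vn_orbitOf S ξ with hK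
  have hinv : ∀ a ∈ S, ∀ η ∈ K, a η ∈ K := by
    rintro a ha _ ⟨b, hb, rfl⟩
    exact ⟨a * b, mul_mem ha hb, rfl⟩
  have hc : Commute (vn_projOn K) x := by
    refine vn_mem_gen_iff.1 hx _ fun a ha => ⟨?_, ?_⟩
    · exact (vn_commute_projOn (hinv a ha) (hinv _ (star_mem ha))).symm
    · exact (vn_commute_projOn (hinv _ (star_mem ha)) (by rw [star_star]; exact hinv a ha)).symm
  have hξ : vn_projOn K ξ = ξ := vn_projOn_apply_of_mem ⟨1, one_mem _, by simp⟩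
  have h1 : x ξ ∈ K.topologicalClosure := by
    rw [← vn_projOn_apply_eq_iff, ← vn_mul_apply, hc.eq, vn_mul_apply, hξ]
  rw [← SetLike.mem_coe, Submodule.topologicalClosure_coe, Metric.mem_closure_iff] at h1
  obtain ⟨_, ⟨a, ha, rfl⟩, h2⟩ := h1 ε hε
  exact ⟨a, ha, by simpa [dist_eq_norm] using h2⟩

/-! ### Amplification -/

section Amp

variable {ι : Type*} [Fintype ι] [DecidableEq ι]

/-- The amplification `a ↦ a ⊕ ⋯ ⊕ a` on `H^ι`. -/
noncomputable def vn_amp (ι : Type*) [Fintype ι] (a : H →L[ℂ] H) :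
    PiLp 2 (fun _ : ι => H) →L[ℂ] PiLp 2 (fun _ : ι => H) :=
  (PiLp.continuousLinearEquiv 2 ℂ (fun _ : ι => H)).symm.toContinuousLinearMap ∘L
    (ContinuousLinearMap.pi fun i => a ∘L PiLp.proj 2 (fun _ : ι => H) i)

theorem vn_amp_apply (a : H →L[ℂ] H) (Ξ : PiLp 2 (fun _ : ι => H)) (i : ι) :
    vn_amp ι a Ξ i = a (Ξ i) := rfl

theorem vn_amp_star (a : H →L[ℂ] H) : star (vn_amp ι a) = vn_amp ι (star a) := by
  rw [ContinuousLinearMap.star_eq_adjoint, eq_comm, ContinuousLinearMap.eq_adjoint_iff]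
  intro Ξ Θ
  rw [PiLp.inner_apply, PiLp.inner_apply]
  refine Finset.sum_congr rfl fun i _ => ?_
  show ⟪star a (Ξ i), Θ i⟫_ℂ = ⟪Ξ i, a (Θ i)⟫_ℂ
  rw [ContinuousLinearMap.star_eq_adjoint, ContinuousLinearMap.adjoint_inner_left]

/-- The inclusion of the `j`-th summand. -/
noncomputable def vn_ampInj (j : ι) : H →L[ℂ] PiLp 2 (fun _ : ι => H) :=
  (PiLp.continuousLinearEquiv 2 ℂ (fun _ : ι => H)).symm.toContinuousLinearMap ∘L
    (ContinuousLinearMap.single ℂ (fun _ : ι => H) j)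

theorem vn_ampInj_apply (j : ι) (ξ : H) (i : ι) :
    vn_ampInj j ξ i = if i = j then ξ else 0 := by
  show (Pi.single j ξ : ι → H) i = _
  rw [Pi.single_apply]

theorem vn_sum_ampInj (Ξ : PiLp 2 (fun _ : ι => H)) : ∑ j, vn_ampInj j (Ξ j) = Ξ := by
  ext i
  have : (∑ j, vn_ampInj j (Ξ j)) i = ∑ j, (vn_ampInj j (Ξ j)) i := by
    simp
  rw [this]
  simp [vn_ampInj_apply]

theorem vn_amp_ampInj (a : H →L[ℂ] H) (j : ι) (ξ : H) :
    vn_amp ι a (vn_ampInj j ξ) = vn_ampInj j (a ξ) := by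
  ext i
  rw [vn_amp_apply, vn_ampInj_apply, vn_ampInj_apply]
  split_ifs <;> simp

/-- An operator on `H^ι` which commutes with the amplification of `S` commutes with the amplification
of the bicommutant of `S`. -/
theorem vn_commute_amp {S : Set (H →L[ℂ] H)} {P : PiLp 2 (fun _ : ι => H) →L[ℂ] PiLp 2 (fun _ : ι => H)}
    (hP : ∀ a ∈ S, Commute P (vn_amp ι a) ∧ Commute P (vn_amp ι (star a))) {x : H →L[ℂ] H}
    (hx : x ∈ vn_gen S) : Commute P (vn_amp ι x) := by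
  have hent : ∀ (a : H →L[ℂ] H), Commute P (vn_amp ι a) → ∀ i j : ι,
      Commute (PiLp.proj 2 (fun _ : ι => H) i ∘L P ∘L vn_ampInj j) a := by
    intro a ha i j
    ext ξ
    show (P (vn_ampInj j (a ξ))) i = a ((P (vn_ampInj j ξ)) i)
    rw [← vn_amp_ampInj, ← vn_amp_apply]
    exact congrArg (fun Θ : PiLp 2 (fun _ : ι => H) => Θ i)
      (congrArg (fun T : PiLp 2 (fun _ : ι => H) →L[ℂ] PiLp 2 (fun _ : ι => H) => T (vn_ampInj j ξ))
        ha.eq)
  have hx' : ∀ i j : ι, Commute (PiLp.proj 2 (fun _ : ι => H) i ∘L P ∘L vn_ampInj j) x :=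
    fun i j => vn_mem_gen_iff.1 hx _ fun a ha => ⟨hent a (hP a ha).1 i j, hent _ (hP a ha).2 i j⟩
  have hx'' : ∀ (i j : ι) (ξ : H), (P (vn_ampInj j (x ξ))) i = x ((P (vn_ampInj j ξ)) i) :=
    fun i j ξ => congrArg (fun T : H →L[ℂ] H => T ξ) (hx' i j).eq
  ext Ξ i
  show (P (vn_amp ι x Ξ)) i = x ((P Ξ) i)
  have e1 : vn_amp ι x Ξ = ∑ j, vn_ampInj j (x (Ξ j)) := by
    rw [← vn_sum_ampInj (vn_amp ι x Ξ)]
    rfl
  have e2 : P Ξ = ∑ j, P (vn_ampInj j (Ξ j)) := by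
    rw [← map_sum, vn_sum_ampInj]
  have e3 : ∀ (f : ι → PiLp 2 (fun _ : ι => H)), (∑ j, f j) i = ∑ j, (f j) i := by
    intro f; simp
  rw [e1, map_sum, e3, e2, e3, map_sum]
  exact Finset.sum_congr rfl fun j _ => hx'' i j (Ξ j)

end Amp

/-- **The bicommutant theorem**: a unital `*`-subalgebra of `B(H)` is strongly dense in its
bicommutant. -/
theorem vn_bicommutant (S : StarSubalgebra ℂ (H →L[ℂ] H)) {x : H →L[ℂ] H}
    (hx : x ∈ vn_gen (S : Set (H →L[ℂ] H))) (F : Finset H) {ε : ℝ} (hε : 0 < ε) :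
    ∃ a ∈ S, ∀ ξ ∈ F, ‖(x - a) ξ‖ < ε := by
  classical
  let Ξ₀ : PiLp 2 (fun _ : F => H) := WithLp.toLp 2 (fun i : F => (i : H))
  let K : Submodule ℂ (PiLp 2 (fun _ : F => H)) :=
    { carrier := {Θ | ∃ a ∈ S, vn_amp F a Ξ₀ = Θ}
      add_mem' := by
        rintro _ _ ⟨a, ha, rfl⟩ ⟨b, hb, rfl⟩
        exact ⟨a + b, add_mem ha hb, by ext i; simp [vn_amp_apply]⟩
      zero_mem' := ⟨0, zero_mem _, by ext i; simp [vn_amp_apply]⟩
      smul_mem' := by
        rintro c _ ⟨a, ha, rfl⟩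
        exact ⟨c • a, S.smul_mem ha c, by ext i; simp [vn_amp_apply]⟩ }
  have hinv : ∀ a ∈ S, ∀ Θ ∈ K, vn_amp F a Θ ∈ K := by
    rintro a ha _ ⟨b, hb, rfl⟩
    exact ⟨a * b, mul_mem ha hb, by ext i; simp [vn_amp_apply]⟩
  have hcomm : ∀ a ∈ S, Commute (vn_projOn K) (vn_amp F a) := by
    intro a ha
    refine (vn_commute_projOn (hinv a ha) ?_).symm
    rw [vn_amp_star]
    exact hinv _ (star_mem ha)
  have hc : Commute (vn_projOn K) (vn_amp F x) :=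
    vn_commute_amp (S := (S : Set (H →L[ℂ] H))) (fun a ha => ⟨hcomm a ha, hcomm _ (star_mem ha)⟩) hx
  have hΞ : vn_projOn K Ξ₀ = Ξ₀ :=
    vn_projOn_apply_of_mem ⟨1, one_mem _, by ext i; simp [vn_amp_apply]⟩
  have h1 : vn_amp F x Ξ₀ ∈ K.topologicalClosure := by
    rw [← vn_projOn_apply_eq_iff, ← vn_mul_apply, hc.eq, vn_mul_apply, hΞ]
  rw [← SetLike.mem_coe, Submodule.topologicalClosure_coe, Metric.mem_closure_iff] at h1
  obtain ⟨_, ⟨a, ha, rfl⟩, h2⟩ := h1 ε hε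
  refine ⟨a, ha, fun ξ hξ => ?_⟩
  rw [dist_eq_norm] at h2
  refine lt_of_le_of_lt ?_ h2
  have := PiLp.norm_apply_le (vn_amp F x Ξ₀ - vn_amp F a Ξ₀) ⟨ξ, hξ⟩
  simpa [vn_amp_apply, Ξ₀] using this

/-- From finite approximation statements to a filter. -/
theorem vn_exists_filter_of_approx (P : (H →L[ℂ] H) → Prop) (x : H →L[ℂ] H)
    (h : ∀ (F : Finset H) (ε : ℝ), 0 < ε → ∃ a, P a ∧ ∀ ξ ∈ F, ‖(x - a) ξ‖ < ε) :
    ∃ l : Filter (H →L[ℂ] H), l.NeBot ∧ (∀ᶠ a in l, P a) ∧ SotTendsto l id x := by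
  classical
  let B : Finset H × {ε : ℝ // 0 < ε} → Set (H →L[ℂ] H) :=
    fun p => {a | P a ∧ ∀ ξ ∈ p.1, ‖(x - a) ξ‖ < p.2.1}
  have hdir : Directed (· ≥ ·) fun p => 𝓟 (B p) := by
    intro p q
    refine ⟨(p.1 ∪ q.1, ⟨min p.2.1 q.2.1, lt_min p.2.2 q.2.2⟩), ?_, ?_⟩
    · refine principal_mono.2 fun a ha => ⟨ha.1, fun ξ hξ => ?_⟩
      exact lt_of_lt_of_le (ha.2 ξ (Finset.mem_union_left _ hξ)) (min_le_left _ _)
    · refine principal_mono.2 fun a ha => ⟨ha.1, fun ξ hξ => ?_⟩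
      exact lt_of_lt_of_le (ha.2 ξ (Finset.mem_union_right _ hξ)) (min_le_right _ _)
  have : Nonempty (Finset H × {ε : ℝ // 0 < ε}) := ⟨(∅, ⟨1, one_pos⟩)⟩
  refine ⟨⨅ p, 𝓟 (B p), ?_, ?_, ?_⟩
  · rw [iInf_neBot_iff_of_directed hdir]
    intro p
    rw [principal_neBot_iff]
    obtain ⟨a, ha⟩ := h p.1 p.2.1 p.2.2
    exact ⟨a, ha⟩
  · have : B (∅, ⟨1, one_pos⟩) ∈ ⨅ p, 𝓟 (B p) :=
      mem_iInf_of_mem (∅, ⟨1, one_pos⟩) (mem_principal_self _)
    exact Filter.mem_of_superset this fun a ha => ha.1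
  · intro ξ
    rw [Metric.tendsto_nhds]
    intro ε hε
    have : B ({ξ}, ⟨ε, hε⟩) ∈ ⨅ p, 𝓟 (B p) :=
      mem_iInf_of_mem ({ξ}, ⟨ε, hε⟩) (mem_principal_self _)
    refine Filter.mem_of_superset this fun a ha => ?_
    have h1 := ha.2 ξ (Finset.mem_singleton_self ξ)
    show dist (a ξ) (x ξ) < ε
    rw [dist_comm, dist_eq_norm]
    simpa using h1

/-- Conversely. -/
theorem vn_exists_approx_of_sotTendsto {ι : Type*} {l : Filter ι} [l.NeBot] {z : ι → H →L[ℂ] H}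
    {x : H →L[ℂ] H} (h : SotTendsto l z x) {P : (H →L[ℂ] H) → Prop} (hP : ∀ᶠ i in l, P (z i))
    (F : Finset H) {ε : ℝ} (hε : 0 < ε) : ∃ a, P a ∧ ∀ ξ ∈ F, ‖(x - a) ξ‖ < ε := by
  have h1 : ∀ᶠ i in l, ∀ ξ ∈ F, ‖(x - z i) ξ‖ < ε := by
    rw [Filter.eventually_all_finset]
    intro ξ _
    filter_upwards [(Metric.tendsto_nhds.1 (h ξ)) ε hε] with i hi
    rw [dist_comm, dist_eq_norm] at hi
    simpa using hi
  obtain ⟨i, hi1, hi2⟩ := (hP.and h1).exists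
  exact ⟨z i, hi1, hi2⟩

end Claimed.Agent.R302
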