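import Claimed.Agent.R302.VN.Polar

/-!
# R302 / VN toolkit, file 9: central supports

Owner: helper268.
-/

set_option autoImplicit false
set_option linter.unusedSectionVars false

open scoped InnerProductSpace ComplexOrder
open Filter Topology

namespace Claimed.Agent.R302

variable {H : Type*} [NormedAddCommGroup H] [InnerProductSpace ℂ H] [CompleteSpace H]

/-- The central support of `e` in `M`: the projection onto the closed span of `M e H`. -/
noncomputable def vn_centralSupport (M : VonNeumannAlgebra H) (e : H →L[ℂ] H) : H →L[ℂ] H :=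
  vn_projOn (Submodule.span ℂ {ζ : H | ∃ x ∈ M, ∃ ξ : H, ζ = x (e ξ)})

variable (M : VonNeumannAlgebra H)

theorem vn_centralSupport_isStarProjection (e : H →L[ℂ] H) :
    IsStarProjection (vn_centralSupport M e) :=
  vn_projOn_isStarProjection _

/-- An operator mapping the generators of a span into the span leaves the span invariant. -/
theorem vn_span_invariant {G : Set H} {y : H →L[ℂ] H} (h : ∀ ζ ∈ G, y ζ ∈ Submodule.span ℂ G) :
    ∀ ζ ∈ Submodule.span ℂ G, y ζ ∈ Submodule.span ℂ G := by
  have h1 : Submodule.span ℂ G ≤ (Submodule.span ℂ G).comap (y : H →ₗ[ℂ] H) :=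
    Submodule.span_le.2 fun ζ hζ => h ζ hζ
  exact fun ζ hζ => h1 hζ

/-- Two operators which agree on the generators of a span agree on the span. -/
theorem vn_span_eqOn {G : Set H} {y y' : H →L[ℂ] H} (h : ∀ ζ ∈ G, y ζ = y' ζ) :
    ∀ ζ ∈ Submodule.span ℂ G, y ζ = y' ζ := by
  have h1 : Submodule.span ℂ G ≤ LinearMap.eqLocus (y : H →ₗ[ℂ] H) (y' : H →ₗ[ℂ] H) :=
    Submodule.span_le.2 fun ζ hζ => h ζ hζ
  exact fun ζ hζ => h1 hζ

theorem vn_centralSupport_mem {e : H →L[ℂ] H} (he : e ∈ M) : vn_centralSupport M e ∈ M := by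
  refine vn_projOn_mem M fun y hy => vn_span_invariant ?_
  rintro _ ⟨x, hx, ξ, rfl⟩
  refine Submodule.subset_span ⟨x, hx, y ξ, ?_⟩
  have h1 : (x * e) * y = y * (x * e) :=
    VonNeumannAlgebra.mem_commutant_iff.1 hy _ (mul_mem hx he)
  exact (congrArg (fun a : H →L[ℂ] H => a ξ) h1).symm

theorem vn_centralSupport_mem_commutant (e : H →L[ℂ] H) :
    vn_centralSupport M e ∈ M.commutant := by
  refine vn_projOn_mem M.commutant ?_
  rw [VonNeumannAlgebra.commutant_commutant]
  intro y hy
  refine vn_span_invariant ?_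
  rintro _ ⟨x, hx, ξ, rfl⟩
  exact Submodule.subset_span ⟨y * x, mul_mem hy hx, ξ, rfl⟩

theorem vn_centralSupport_mul_self (e : H →L[ℂ] H) : vn_centralSupport M e * e = e := by
  ext ξ
  exact vn_projOn_apply_of_mem (Submodule.subset_span ⟨1, one_mem _, ξ, rfl⟩)

theorem vn_le_centralSupport {e : H →L[ℂ] H} (he : IsStarProjection e) :
    e ≤ vn_centralSupport M e :=
  (he.le_iff_mul_eq_right (vn_centralSupport_isStarProjection M e)).2
    (vn_centralSupport_mul_self M e)

/-- Minimality: a projection `q ∈ M'` with `q e = e` dominates the central support. -/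
theorem vn_centralSupport_le {e q : H →L[ℂ] H} (hq : IsStarProjection q) (hqM : q ∈ M.commutant)
    (h : q * e = e) : vn_centralSupport M e ≤ q := by
  rw [vn_centralSupport, vn_projOn_le_iff hq]
  refine vn_span_eqOn (y := q) (y' := 1) ?_
  rintro _ ⟨x, hx, ξ, rfl⟩
  have h1 : x * q = q * x := VonNeumannAlgebra.mem_commutant_iff.1 hqM x hx
  show q (x (e ξ)) = x (e ξ)
  calc q (x (e ξ)) = (q * x) (e ξ) := rfl
    _ = (x * q) (e ξ) := by rw [h1]
    _ = x ((q * e) ξ) := rfl
    _ = x (e ξ) := by rw [h]

/-- `e M f = 0` iff the central supports are orthogonal. -/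
theorem vn_centralSupport_mul_eq_zero_iff {e f : H →L[ℂ] H} (_he : e ∈ M) (_hf : f ∈ M)
    (hes : IsSelfAdjoint e) :
    vn_centralSupport M e * vn_centralSupport M f = 0 ↔ ∀ x ∈ M, e * x * f = 0 := by
  set ze := vn_centralSupport M e with hze
  set zf := vn_centralSupport M f with hzf
  have hzep : IsStarProjection ze := vn_centralSupport_isStarProjection M e
  have hzfp : IsStarProjection zf := vn_centralSupport_isStarProjection M f
  have h1 : ze * e = e := vn_centralSupport_mul_self M e
  have h2 : zf * f = f := vn_centralSupport_mul_self M f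
  have h1' : e * ze = e := by
    have := congrArg star h1
    simpa [hes.star_eq, hzep.isSelfAdjoint.star_eq] using this
  constructor
  · intro h x hx
    have hc : x * ze = ze * x :=
      VonNeumannAlgebra.mem_commutant_iff.1 (vn_centralSupport_mem_commutant M e) x hx
    calc e * x * f = (e * ze) * x * (zf * f) := by rw [h1', h2]
      _ = e * (ze * x) * zf * f := by simp only [mul_assoc]
      _ = e * (x * ze) * zf * f := by rw [hc]
      _ = e * x * (ze * zf) * f := by simp only [mul_assoc]
      _ = 0 := by rw [h]; simp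
  · intro h
    have h3 : e * zf = 0 := by
      rw [hzf, vn_centralSupport, vn_mul_projOn_eq_zero_iff]
      refine vn_span_eqOn (y := e) (y' := 0) ?_
      rintro _ ⟨x, hx, ξ, rfl⟩
      exact congrArg (fun a : H →L[ℂ] H => a ξ) (h x hx)
    have h4 : zf * e = 0 := by
      have := congrArg star h3
      simpa [hes.star_eq, hzfp.isSelfAdjoint.star_eq] using this
    have h5 : ze ≤ 1 - zf := by
      refine vn_centralSupport_le M hzfp.one_sub
        (sub_mem (one_mem _) (vn_centralSupport_mem_commutant M f)) ?_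
      rw [sub_mul, one_mul, h4, sub_zero]
    exact (vn_proj_mul_eq_zero_iff hzep hzfp).2 h5

/-- If `e M f ≠ 0` there is a nonzero partial isometry `v ∈ M` with `v v* ≤ e`, `v* v ≤ f`. -/
theorem vn_exists_partialIsometry_of_ne_zero {e f x : H →L[ℂ] H} (he : IsStarProjection e)
    (hf : IsStarProjection f) (heM : e ∈ M) (hfM : f ∈ M) (hx : x ∈ M) (h : e * x * f ≠ 0) :
    ∃ v ∈ M, v ≠ 0 ∧ IsStarProjection (star v * v) ∧ IsStarProjection (v * star v) ∧
      v * star v ≤ e ∧ star v * v ≤ f := by
  set w := e * x * f with hw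
  have hwM : w ∈ M := mul_mem (mul_mem heM hx) hfM
  refine ⟨vn_polar w, vn_polar_mem M hwM, ?_, ?_, ?_, ?_, ?_⟩
  · intro h0
    apply h
    rw [← vn_polar_mul_abs w, h0, zero_mul]
  · rw [vn_star_polar_mul_polar]; exact vn_rangeProj_isStarProjection _
  · rw [vn_polar_mul_star_polar]; exact vn_rangeProj_isStarProjection _
  · rw [vn_polar_mul_star_polar, vn_rangeProj_le_iff he, hw, ← mul_assoc, ← mul_assoc,
      he.isIdempotentElem.eq]
  · rw [vn_star_polar_mul_polar, vn_rangeProj_le_iff hf, hw]
    simp only [star_mul, hf.isSelfAdjoint.star_eq, he.isSelfAdjoint.star_eq]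
    rw [← mul_assoc, hf.isIdempotentElem.eq]

end Claimed.Agent.R302
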