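import Claimed.Agent.R302.VN.Proj

/-!
# R302 / VN toolkit, file 6: cyclic and separating vectors

Owner: helper268.
-/

set_option autoImplicit false
set_option linter.unusedSectionVars false

open scoped InnerProductSpace ComplexOrder
open Filter Topology

namespace Claimed.Agent.R302

variable {H : Type*} [NormedAddCommGroup H] [InnerProductSpace ℂ H] [CompleteSpace H]

/-- The subspace `M Ω`. -/
def vn_orbit (M : VonNeumannAlgebra H) (Ω : H) : Submodule ℂ H where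
  carrier := {ξ | ∃ x ∈ M, x Ω = ξ}
  add_mem' := by
    rintro _ _ ⟨x, hx, rfl⟩ ⟨y, hy, rfl⟩
    exact ⟨x + y, add_mem hx hy, by simp⟩
  zero_mem' := ⟨0, zero_mem _, by simp⟩
  smul_mem' := by
    rintro c _ ⟨x, hx, rfl⟩
    exact ⟨c • x, M.toStarSubalgebra.smul_mem hx c, by simp⟩

/-- `Ω` is cyclic for `M`: `M Ω` is dense. -/
def vn_IsCyclic (M : VonNeumannAlgebra H) (Ω : H) : Prop := Dense (vn_orbit M Ω : Set H)

/-- `Ω` is separating for `M`. -/
def vn_IsSeparating (M : VonNeumannAlgebra H) (Ω : H) : Prop := ∀ x ∈ M, x Ω = 0 → x = 0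

theorem vn_mem_orbit {M : VonNeumannAlgebra H} {Ω ξ : H} :
    ξ ∈ vn_orbit M Ω ↔ ∃ x ∈ M, x Ω = ξ := Iff.rfl

theorem vn_self_mem_orbit (M : VonNeumannAlgebra H) (Ω : H) : Ω ∈ vn_orbit M Ω :=
  ⟨1, one_mem _, by simp⟩

/-- The projection onto the closure of `M Ω` belongs to `M'`. -/
theorem vn_projOn_orbit_mem (M : VonNeumannAlgebra H) (Ω : H) :
    vn_projOn (vn_orbit M Ω) ∈ M.commutant := by
  refine vn_projOn_mem M.commutant ?_
  rw [VonNeumannAlgebra.commutant_commutant]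
  rintro y hy _ ⟨x, hx, rfl⟩
  exact ⟨y * x, mul_mem hy hx, rfl⟩

theorem vn_isSeparating_commutant_of_isCyclic {M : VonNeumannAlgebra H} {Ω : H}
    (h : vn_IsCyclic M Ω) : vn_IsSeparating M.commutant Ω := by
  intro y hy hyΩ
  have h1 : y * vn_projOn (vn_orbit M Ω) = 0 := by
    rw [vn_mul_projOn_eq_zero_iff]
    rintro _ ⟨x, hx, rfl⟩
    have hc : x * y = y * x := VonNeumannAlgebra.mem_commutant_iff.1 hy x hx
    rw [← vn_mul_apply, ← hc, vn_mul_apply, hyΩ, map_zero]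
  rwa [vn_projOn_eq_one_iff.2 h, mul_one] at h1

theorem vn_isCyclic_commutant_of_isSeparating {M : VonNeumannAlgebra H} {Ω : H}
    (h : vn_IsSeparating M Ω) : vn_IsCyclic M.commutant Ω := by
  have h1 : vn_projOn (vn_orbit M.commutant Ω) ∈ M := by
    have := vn_projOn_orbit_mem M.commutant Ω
    rwa [VonNeumannAlgebra.commutant_commutant] at this
  have h2 : (1 - vn_projOn (vn_orbit M.commutant Ω)) = 0 := by
    refine h _ (sub_mem (one_mem _) h1) ?_
    simp [vn_projOn_apply_of_mem (vn_self_mem_orbit M.commutant Ω)]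
  exact vn_projOn_eq_one_iff.1 (sub_eq_zero.1 h2).symm

theorem vn_isCyclic_commutant_iff {M : VonNeumannAlgebra H} {Ω : H} :
    vn_IsCyclic M.commutant Ω ↔ vn_IsSeparating M Ω := by
  constructor
  · intro h
    have := vn_isSeparating_commutant_of_isCyclic h
    rwa [VonNeumannAlgebra.commutant_commutant] at this
  · exact vn_isCyclic_commutant_of_isSeparating

theorem vn_isSeparating_commutant_iff {M : VonNeumannAlgebra H} {Ω : H} :
    vn_IsSeparating M.commutant Ω ↔ vn_IsCyclic M Ω := by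
  have := vn_isCyclic_commutant_iff (M := M.commutant) (Ω := Ω)
  rw [VonNeumannAlgebra.commutant_commutant] at this
  exact this.symm

/-- Two elements of `M` which agree on a separating vector are equal. -/
theorem vn_IsSeparating.eq {M : VonNeumannAlgebra H} {Ω : H} (h : vn_IsSeparating M Ω)
    {x y : H →L[ℂ] H} (hx : x ∈ M) (hy : y ∈ M) (hxy : x Ω = y Ω) : x = y :=
  sub_eq_zero.1 (h _ (sub_mem hx hy) (by simp [hxy]))

/-- For `z i ∈ M` with `z i Ω → ζ` and `c ∈ M'`: `z i (c Ω) → c ζ`. -/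
theorem vn_tendsto_apply_commutant {M : VonNeumannAlgebra H} {Ω : H} {ι : Type*} {l : Filter ι}
    {z : ι → H →L[ℂ] H} (hM : ∀ᶠ i in l, z i ∈ M) {ζ : H}
    (h : Tendsto (fun i => z i Ω) l (𝓝 ζ)) {c : H →L[ℂ] H} (hc : c ∈ M.commutant) :
    Tendsto (fun i => z i (c Ω)) l (𝓝 (c ζ)) := by
  refine ((c.continuous.tendsto _).comp h).congr' ?_
  filter_upwards [hM] with i hi
  have : z i * c = c * z i := VonNeumannAlgebra.mem_commutant_iff.1 hc _ hi
  exact (congrArg (fun a : H →L[ℂ] H => a Ω) this).symm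

/-- A bounded family in `M` which converges on a vector `Ω` separating for `M` (i.e. cyclic for `M'`)
converges strongly, and the limit belongs to `M`. -/
theorem vn_exists_sotTendsto_of_tendsto_apply {M : VonNeumannAlgebra H} {Ω : H}
    (hΩ : vn_IsSeparating M Ω) {ι : Type*} {l : Filter ι} [l.NeBot] {z : ι → H →L[ℂ] H} {C : ℝ}
    (hM : ∀ᶠ i in l, z i ∈ M) (hb : ∀ᶠ i in l, ‖z i‖ ≤ C) {ζ : H}
    (h : Tendsto (fun i => z i Ω) l (𝓝 ζ)) :
    ∃ z₀ ∈ M, SotTendsto l z z₀ ∧ z₀ Ω = ζ ∧ ‖z₀‖ ≤ C := by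
  have hU : ((Ultrafilter.of l : Ultrafilter ι) : Filter ι) ≤ l := Ultrafilter.of_le l
  obtain ⟨z₀, hz₀⟩ := vn_exists_wotTendsto (Ultrafilter.of l) z (hb.filter_mono hU)
  have hval : ∀ c ∈ M.commutant, z₀ (c Ω) = c ζ := by
    intro c hc
    apply ext_inner_left ℂ
    intro η
    exact tendsto_nhds_unique (hz₀ (c Ω) η)
      (tendsto_const_nhds.inner ((vn_tendsto_apply_commutant hM h hc).mono_left hU))
  refine ⟨z₀, hz₀.mem M (hM.filter_mono hU), ?_, ?_, hz₀.norm_le (hb.filter_mono hU)⟩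
  · refine vn_sotTendsto_of_dense hb (vn_isCyclic_commutant_of_isSeparating hΩ) ?_
    rintro _ ⟨c, hc, rfl⟩
    rw [hval c hc]
    exact vn_tendsto_apply_commutant hM h hc
  · simpa using hval 1 (one_mem _)

/-- A bounded family in `M`: strong convergence can be tested on a separating vector. -/
theorem vn_sotTendsto_iff_of_isSeparating {M : VonNeumannAlgebra H} {Ω : H}
    (hΩ : vn_IsSeparating M Ω) {ι : Type*} {l : Filter ι} {z : ι → H →L[ℂ] H} {C : ℝ}
    (hM : ∀ᶠ i in l, z i ∈ M) (hb : ∀ᶠ i in l, ‖z i‖ ≤ C) {z₀ : H →L[ℂ] H} (hz₀ : z₀ ∈ M) :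
    SotTendsto l z z₀ ↔ Tendsto (fun i => z i Ω) l (𝓝 (z₀ Ω)) := by
  constructor
  · intro h
    exact h Ω
  · intro h
    refine vn_sotTendsto_of_dense hb (vn_isCyclic_commutant_of_isSeparating hΩ) ?_
    rintro _ ⟨c, hc, rfl⟩
    have h1 := vn_tendsto_apply_commutant hM h hc
    have h2 : z₀ * c = c * z₀ := VonNeumannAlgebra.mem_commutant_iff.1 hc _ hz₀
    have h3 : z₀ (c Ω) = c (z₀ Ω) := congrArg (fun a : H →L[ℂ] H => a Ω) h2
    rwa [h3]

/-- Approximation of `z Ω`, `z` arbitrary, by `c' Ω` with `c' ∈ M'` when `Ω` is separating for `M`. -/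
theorem vn_exists_commutant_approx {M : VonNeumannAlgebra H} {Ω : H} (hΩ : vn_IsSeparating M Ω)
    (ξ : H) {ε : ℝ} (hε : 0 < ε) : ∃ c ∈ M.commutant, ‖ξ - c Ω‖ < ε := by
  obtain ⟨_, ⟨c, hc, rfl⟩, h⟩ := (vn_isCyclic_commutant_of_isSeparating hΩ).exists_dist_lt ξ hε
  exact ⟨c, hc, by rwa [← dist_eq_norm]⟩

end Claimed.Agent.R302
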