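/-
R302 / VN / Factor (owner helper283).  Factorisation lemmas for Hilbert spaces:
* `vn_ext_of_orthogonal` : two bounded operators agreeing on a subspace and on its orthogonal complement are equal;
* `vn_exists_factor`     : `‖Ψ f‖ ≤ C ‖Φ f‖` for all `f` gives a bounded `T` with `T ∘ Φ = Ψ`, `T = 0` on `(range Φ)ᗮ`;
* `vn_exists_of_gram`    : two families with the same Gram matrix are related by a bounded operator.
-/
import Mathlib

set_option autoImplicit false

open scoped InnerProductSpace ComplexOrder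

-- with `ComplexOrder` in scope this instance hijacks `Inner ℂ H`
attribute [-instance] WithCStarModule.instCStarModuleComplex

namespace Claimed.Agent.R302

variable {G : Type*} [NormedAddCommGroup G] [InnerProductSpace ℂ G] [CompleteSpace G]
variable {G' : Type*} [NormedAddCommGroup G'] [InnerProductSpace ℂ G'] [CompleteSpace G']

/-- Two bounded operators which agree on a set `s` (closed under nothing) spanning a subspace and on the vectors orthogonal
to `s` are equal. -/
theorem vn_ext_of_orthogonal {F : Type*} [NormedAddCommGroup F] [NormedSpace ℂ F]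
    (S T : G →L[ℂ] F) (s : Set G) (h : ∀ v ∈ s, S v = T v)
    (h' : ∀ v, (∀ w ∈ s, ⟪w, v⟫_ℂ = 0) → S v = T v) : S = T := by
  set K : Submodule ℂ G := (Submodule.span ℂ s).topologicalClosure with hK
  have hKc : IsClosed (K : Set G) := Submodule.isClosed_topologicalClosure _
  have : CompleteSpace K := hKc.completeSpace_coe
  -- agreement on `K`
  have h1 : ∀ v ∈ K, S v = T v := by
    intro v hv
    have hcl : IsClosed {v : G | S v = T v} := isClosed_eq S.continuous T.continuous
    have hsub : ((Submodule.span ℂ s : Submodule ℂ G) : Set G) ⊆ {v : G | S v = T v} := by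
      intro w hw
      induction hw using Submodule.span_induction with
      | mem x hx => exact h x hx
      | zero => simp
      | add x y _ _ hx hy =>
        simp only [Set.mem_ofPred_eq] at hx hy ⊢
        rw [map_add, map_add, hx, hy]
      | smul c x _ hx =>
        simp only [Set.mem_ofPred_eq] at hx ⊢
        rw [map_smul, map_smul, hx]
    exact closure_minimal hsub hcl hv
  have h2 : ∀ v ∈ Kᗮ, S v = T v := by
    intro v hv
    refine h' v fun w hw => ?_
    exact (Submodule.mem_orthogonal K v).1 hv w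
      (Submodule.le_topologicalClosure _ (Submodule.subset_span hw))
  ext v
  have hv : v = (K.starProjection v) + (v - K.starProjection v) := by abel
  rw [hv, map_add, map_add, h1 _ (Submodule.starProjection_apply_mem K v),
    h2 _ (Submodule.sub_starProjection_mem_orthogonal v)]

/-- Factorisation: if `‖Ψ f‖ ≤ C ‖Φ f‖` then `Ψ = T ∘ Φ` with `T` bounded, vanishing on the orthogonal complement of
the range of `Φ`. -/
theorem vn_exists_factor {E : Type*} [AddCommGroup E] [Module ℂ E] (Φ : E →ₗ[ℂ] G) (Ψ : E →ₗ[ℂ] G')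
    (C : ℝ) (h : ∀ f, ‖Ψ f‖ ≤ C * ‖Φ f‖) :
    ∃ T : G →L[ℂ] G', (∀ f, T (Φ f) = Ψ f) ∧ (∀ v, (∀ f, ⟪Φ f, v⟫_ℂ = 0) → T v = 0) := by
  set K : Submodule ℂ G := (LinearMap.range Φ).topologicalClosure with hK
  have hKc : IsClosed (K : Set G) := Submodule.isClosed_topologicalClosure _
  have : CompleteSpace K := hKc.completeSpace_coe
  have hmem : ∀ f, Φ f ∈ K := fun f =>
    Submodule.le_topologicalClosure _ (LinearMap.mem_range_self Φ f)
  let e : E →ₗ[ℂ] K := Φ.codRestrict K hmem
  have he : ∀ f, ((e f : K) : G) = Φ f := fun f => rfl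
  have hdense : DenseRange e := by
    intro x
    have hx : (x : G) ∈ closure (Set.range Φ) := by
      have h0 : (x : G) ∈ ((LinearMap.range Φ).topologicalClosure : Set G) := x.2
      rw [Submodule.topologicalClosure_coe, LinearMap.coe_range] at h0
      exact h0
    rw [Metric.mem_closure_iff] at hx ⊢
    intro ε hε
    obtain ⟨_, ⟨f, rfl⟩, hf⟩ := hx ε hε
    exact ⟨e f, ⟨f, rfl⟩, by simpa [Subtype.dist_eq, he] using hf⟩
  have hnorm : ∃ C, ∀ f, ‖Ψ f‖ ≤ C * ‖e f‖ := ⟨C, fun f => by simpa [he] using h f⟩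
  let T₀ : K →L[ℂ] G' := Ψ.extendOfNorm e
  refine ⟨T₀ ∘L K.orthogonalProjectionOnto, fun f => ?_, fun v hv => ?_⟩
  · have h1 : K.orthogonalProjectionOnto (Φ f) = e f := by
      have := Submodule.orthogonalProjectionOnto_mem_subspace_eq_self (K := K) (e f)
      simpa [he] using this
    rw [ContinuousLinearMap.comp_apply, h1]
    exact LinearMap.extendOfNorm_eq hdense hnorm f
  · have h1 : v ∈ Kᗮ := by
      rw [hK, Submodule.orthogonal_closure, Submodule.mem_orthogonal]
      rintro _ ⟨f, rfl⟩
      exact hv f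
    rw [ContinuousLinearMap.comp_apply,
      Submodule.orthogonalProjectionOnto_apply_of_mem_orthogonal h1, map_zero]

/-- Two families with the same Gram matrix: there is a bounded operator carrying the first to the second, vanishing on the
orthogonal complement of the first. -/
theorem vn_exists_of_gram {ι : Type*} (a : ι → G) (b : ι → G')
    (h : ∀ i j, ⟪b i, b j⟫_ℂ = ⟪a i, a j⟫_ℂ) :
    ∃ T : G →L[ℂ] G', (∀ i, T (a i) = b i) ∧ (∀ v, (∀ i, ⟪a i, v⟫_ℂ = 0) → T v = 0) := by
  let Φ : (ι →₀ ℂ) →ₗ[ℂ] G := Finsupp.linearCombination ℂ a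
  let Ψ : (ι →₀ ℂ) →ₗ[ℂ] G' := Finsupp.linearCombination ℂ b
  have hn : ∀ f, ‖Ψ f‖ ≤ 1 * ‖Φ f‖ := by
    intro f
    have h1 : ⟪Ψ f, Ψ f⟫_ℂ = ⟪Φ f, Φ f⟫_ℂ := by
      simp only [Φ, Ψ, Finsupp.linearCombination_apply, Finsupp.sum, sum_inner, inner_sum,
        inner_smul_left, inner_smul_right, h]
    have h2 : ‖Ψ f‖ ^ 2 = ‖Φ f‖ ^ 2 := by
      have := congrArg Complex.re h1
      rw [inner_self_eq_norm_sq_to_K, inner_self_eq_norm_sq_to_K] at this
      exact_mod_cast this
    rw [one_mul]
    exact le_of_eq (by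
      have := (sq_eq_sq₀ (norm_nonneg _) (norm_nonneg _)).1 h2
      exact this)
  obtain ⟨T, hT, hT'⟩ := vn_exists_factor Φ Ψ 1 hn
  refine ⟨T, fun i => ?_, fun v hv => hT' v fun f => ?_⟩
  · have := hT (Finsupp.single i 1)
    simpa [Φ, Ψ] using this
  · simp only [Φ, Finsupp.linearCombination_apply, Finsupp.sum, sum_inner, inner_smul_left, hv,
      mul_zero, Finset.sum_const_zero]

end Claimed.Agent.R302
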