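import Claimed.Agent.R302.VN.SpecBase

/-!
# R302 / VN toolkit, file 4b: Markov inequality, positive contractions, finite spectrum density

Owner: helper268.  (The basic theory of `vn_specGt`, `vn_specGe` is in `VN/SpecBase.lean`.)
-/

set_option autoImplicit false
set_option linter.unusedSectionVars false

open scoped InnerProductSpace ComplexOrder
open Filter Topology

namespace Claimed.Agent.R302

variable {H : Type*} [NormedAddCommGroup H] [InnerProductSpace ℂ H] [CompleteSpace H]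
variable {z : H →L[ℂ] H}

/-! ### Chebyshev–Markov, positive contractions -/

/-- For `a ≥ 0` and a projection `e` commuting with `a` with `(a - t) e ≥ 0`: `t e ≤ a`. -/
theorem vn_smul_proj_le_aux {a e : H →L[ℂ] H} (ha : 0 ≤ a) (he : IsStarProjection e)
    (hc : Commute a e) {t : ℝ} (h : 0 ≤ (a - vn_sc t) * e) : vn_sc t * e ≤ a := by
  have h1 : 0 ≤ a * (1 - e) :=
    Commute.mul_nonneg ha he.one_sub.nonneg ((Commute.one_right a).sub_right hc)
  have h2 : a - vn_sc t * e = (a - vn_sc t) * e + a * (1 - e) := by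
    rw [sub_mul, mul_sub, mul_one]; abel
  rw [← sub_nonneg, h2]
  exact add_nonneg h h1

/-- For `a ≥ 0`, `t > 0`: `t 1_{(t,∞)}(a) ≤ a` (also for `1_{[t,∞)}`). -/
theorem vn_smul_specGt_le {a : H →L[ℂ] H} (ha : 0 ≤ a) (t : ℝ) :
    vn_sc t * vn_specGt a t ≤ a :=
  vn_smul_proj_le_aux ha (vn_specGt_isStarProjection a t) (vn_commute_self_specGt a t)
    (vn_specGt_nonneg ha.isSelfAdjoint t)

theorem vn_smul_specGe_le {a : H →L[ℂ] H} (ha : 0 ≤ a) (t : ℝ) :
    vn_sc t * vn_specGe a t ≤ a :=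
  vn_smul_proj_le_aux ha (vn_specGe_isStarProjection a t) (vn_commute_self_specGe a t)
    (vn_specGe_nonneg ha.isSelfAdjoint t)

/-- For `a ≥ 0`: `‖a (1 - 1_{(t,∞)}(a))‖ ≤ t` (`t ≥ 0`). -/
theorem vn_norm_mul_specGt_compl_le {a : H →L[ℂ] H} (ha : 0 ≤ a) {t : ℝ} (ht : 0 ≤ t) :
    ‖a * (1 - vn_specGt a t)‖ ≤ t := by
  have he := (vn_specGt_isStarProjection a t).one_sub
  have h1 : 0 ≤ a * (1 - vn_specGt a t) :=
    Commute.mul_nonneg ha he.nonneg ((Commute.one_right a).sub_right (vn_commute_self_specGt a t))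
  refine vn_norm_le_of_le_sc h1 ht ?_
  have h2 := vn_specGt_compl_nonpos ha.isSelfAdjoint t
  rw [sub_mul, sub_nonpos] at h2
  refine h2.trans ?_
  have h3 : (vn_sc t : H →L[ℂ] H) - vn_sc t * (1 - vn_specGt a t) = vn_sc t * vn_specGt a t := by
    rw [mul_sub, mul_one]; abel
  rw [← sub_nonneg, h3]
  exact Commute.mul_nonneg (vn_sc_nonneg ht) (vn_specGt_isStarProjection a t).nonneg
    (vn_sc_commute t _)

/-- A positive contraction `c` and `q = 1_{(1/2,∞)}(c)`: `q ≤ 2 c` and `1 - q ≤ 2 (1 - c)`. -/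
theorem vn_specGt_half {c : H →L[ℂ] H} (hc : 0 ≤ c) (hc1 : c ≤ 1) :
    vn_specGt c (1 / 2) ≤ (2 : ℂ) • c ∧ 1 - vn_specGt c (1 / 2) ≤ (2 : ℂ) • (1 - c) := by
  set q := vn_specGt c (1 / 2) with hq
  have hqp : IsStarProjection q := vn_specGt_isStarProjection _ _
  have hcq : Commute c q := vn_commute_self_specGt c _
  have two : ∀ x y : H →L[ℂ] H, vn_sc (1 / 2) * x ≤ y → x ≤ (2 : ℂ) • y := by
    intro x y h
    have h1 : (2 : ℂ) • (y - vn_sc (1 / 2) * x) = (2 : ℂ) • y - x := by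
      simp only [vn_sc, smul_sub, smul_mul_assoc, one_mul, smul_smul]
      norm_num
    have h2 : (0 : H →L[ℂ] H) ≤ (2 : ℂ) • (y - vn_sc (1 / 2) * x) :=
      smul_nonneg (by norm_num) (sub_nonneg.2 h)
    rw [h1] at h2
    exact sub_nonneg.1 h2
  refine ⟨two _ _ (vn_smul_specGt_le hc _), two _ _ ?_⟩
  have h1 := vn_specGt_compl_nonpos hc.isSelfAdjoint (1 / 2)
  have h2 : 0 ≤ (1 - c) * q :=
    Commute.mul_nonneg (sub_nonneg.2 hc1) hqp.nonneg ((Commute.one_left q).sub_left hcq)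
  have h3 : (1 - c) - vn_sc (1 / 2) * (1 - q)
      = (1 - c) * q + -((c - vn_sc (1 / 2)) * (1 - q)) := by
    simp only [vn_sc, sub_mul, mul_sub, smul_mul_assoc, one_mul, mul_one]
    push_cast
    module
  rw [← sub_nonneg, h3]
  exact add_nonneg h2 (neg_nonneg.2 h1)

/-- The spectral projection `1_{[-ε,ε]}(z)` of a selfadjoint operator. -/
noncomputable def vn_specAbsLe (z : H →L[ℂ] H) (ε : ℝ) : H →L[ℂ] H :=
  1 - vn_specGt (z * z) (ε ^ 2)

theorem vn_specAbsLe_isStarProjection (z : H →L[ℂ] H) (ε : ℝ) :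
    IsStarProjection (vn_specAbsLe z ε) :=
  (vn_specGt_isStarProjection _ _).one_sub

theorem vn_commute_specAbsLe {y : H →L[ℂ] H} (h : Commute y z) (ε : ℝ) :
    Commute y (vn_specAbsLe z ε) :=
  (Commute.one_right y).sub_right (vn_commute_specGt (h.mul_right h) _)

theorem vn_specAbsLe_mem (M : VonNeumannAlgebra H) (hz : z ∈ M) (ε : ℝ) :
    vn_specAbsLe z ε ∈ M :=
  sub_mem (one_mem _) (vn_specGt_mem M (mul_mem hz hz) _)

theorem vn_mul_self_nonneg (hz : IsSelfAdjoint z) : 0 ≤ z * z := by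
  have := star_mul_self_nonneg z
  rwa [hz.star_eq] at this

/-- `‖z 1_{[-ε,ε]}(z)‖ ≤ ε`. -/
theorem vn_norm_mul_specAbsLe_le (hz : IsSelfAdjoint z) {ε : ℝ} (hε : 0 ≤ ε) :
    ‖z * vn_specAbsLe z ε‖ ≤ ε := by
  set q := vn_specAbsLe z ε with hq
  have hqp : IsStarProjection q := vn_specAbsLe_isStarProjection z ε
  have hzq : Commute z q := vn_commute_specAbsLe (Commute.refl z) ε
  have h1 : star (z * q) * (z * q) = (z * z) * q := by
    rw [star_mul, hz.star_eq, hqp.isSelfAdjoint.star_eq]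
    calc q * z * (z * q) = q * (z * (z * q)) := by simp only [mul_assoc]
      _ = q * (q * (z * z)) := by
          rw [hzq.eq, ← mul_assoc z q z, hzq.eq, mul_assoc]
      _ = q * (z * z) := by rw [← mul_assoc, hqp.isIdempotentElem.eq]
      _ = (z * z) * q := ((hzq.mul_left hzq).eq).symm
  have h2 : ‖z * q‖ * ‖z * q‖ ≤ ε ^ 2 := by
    rw [← CStarRing.norm_star_mul_self, h1]
    exact vn_norm_mul_specGt_compl_le (vn_mul_self_nonneg hz) (sq_nonneg ε)
  nlinarith [norm_nonneg (z * q)]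

/-- For `a ≥ 0`, `t ≥ 0`: `t^k 1_{(t,∞)}(a) ≤ a^k`. -/
theorem vn_markov_aux {a : H →L[ℂ] H} (ha : 0 ≤ a) {t : ℝ} (ht : 0 ≤ t) (k : ℕ) :
    vn_sc (t ^ k) * vn_specGt a t ≤ a ^ k := by
  set E := vn_specGt a t with hE
  have hEp : IsStarProjection E := vn_specGt_isStarProjection a t
  have haE : Commute a E := vn_commute_self_specGt a t
  induction k with
  | zero =>
    simpa [vn_sc] using vn_proj_le_one hEp
  | succ k ih =>
    have h1 : 0 ≤ a * (a ^ k - vn_sc (t ^ k) * E) := by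
      refine Commute.mul_nonneg ha (sub_nonneg.2 ih) ?_
      exact (Commute.pow_right (Commute.refl a) k).sub_right
        ((vn_sc_commute _ a).symm.mul_right haE)
    have h2 : 0 ≤ vn_sc (t ^ k) * ((a - vn_sc t) * E) :=
      Commute.mul_nonneg (vn_sc_nonneg (pow_nonneg ht k)) (vn_specGt_nonneg ha.isSelfAdjoint t)
        (vn_sc_commute _ _)
    have h3 : a ^ (k + 1) - vn_sc (t ^ (k + 1)) * E
        = a * (a ^ k - vn_sc (t ^ k) * E) + vn_sc (t ^ k) * ((a - vn_sc t) * E) := by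
      have e1 : (vn_sc (t ^ (k + 1)) : H →L[ℂ] H) = vn_sc (t ^ k) * vn_sc t := by
        simp only [vn_sc, smul_mul_assoc, one_mul, smul_smul]
        push_cast
        rw [pow_succ]
      have e2 : a * (vn_sc (t ^ k) * E) = vn_sc (t ^ k) * (a * E) := by
        rw [← mul_assoc, ← (vn_sc_commute (t ^ k) a).eq, mul_assoc]
      rw [e1, pow_succ' a k, mul_sub, e2, sub_mul, mul_sub, mul_assoc]
      abel
    rw [← sub_nonneg, h3]
    exact add_nonneg h1 h2

/-- **Markov inequality**: `ε^{2k} (1 - 1_{[-ε,ε]}(z)) ≤ z^{2k}`. -/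
theorem vn_markov_op (hz : IsSelfAdjoint z) {ε : ℝ} (_hε : 0 ≤ ε) (k : ℕ) :
    vn_sc (ε ^ (2 * k)) * (1 - vn_specAbsLe z ε) ≤ z ^ (2 * k) := by
  have h := vn_markov_aux (vn_mul_self_nonneg hz) (sq_nonneg ε) k
  rwa [← pow_mul, ← sq, ← pow_mul, ← sub_sub_cancel 1 (vn_specGt (z ^ 2) (ε ^ 2)), sq z] at h

/-- **Markov inequality**, vector form:
`ε^{2k} ‖(1 - q) Ω‖² ≤ ⟪Ω, z^{2k} Ω⟫`, `q = 1_{[-ε,ε]}(z)`. -/
theorem vn_markov (hz : IsSelfAdjoint z) {ε : ℝ} (hε : 0 ≤ ε) (k : ℕ) (Ω : H) :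
    ε ^ (2 * k) * ‖(1 - vn_specAbsLe z ε) Ω‖ ^ 2 ≤ (⟪Ω, (z ^ (2 * k)) Ω⟫_ℂ).re := by
  have h := vn_re_inner_le_of_le (vn_markov_op hz hε k) Ω
  have hp : IsStarProjection (1 - vn_specAbsLe z ε) := (vn_specAbsLe_isStarProjection z ε).one_sub
  rw [vn_mul_apply, vn_sc_apply, inner_smul_right, vn_proj_inner_self hp] at h
  have e : ((ε ^ (2 * k) : ℝ) : ℂ) * ((‖(1 - vn_specAbsLe z ε) Ω‖ ^ 2 : ℝ) : ℂ)
      = ((ε ^ (2 * k) * ‖(1 - vn_specAbsLe z ε) Ω‖ ^ 2 : ℝ) : ℂ) := by push_cast; ring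
  rw [e, Complex.ofReal_re] at h
  exact h

/-! ### Density of operators with finite spectrum -/

theorem vn_sc_mul_proj_mono {e : H →L[ℂ] H} (he : IsStarProjection e) {a b : ℝ} (h : a ≤ b) :
    vn_sc a * e ≤ vn_sc b * e := by
  rw [← sub_nonneg, ← sub_mul]
  exact Commute.mul_nonneg (sub_nonneg.2 (vn_sc_mono h)) he.nonneg
    ((vn_sc_commute b e).sub_left (vn_sc_commute a e))

theorem vn_le_sc_norm (hz : IsSelfAdjoint z) : z ≤ vn_sc ‖z‖ := by
  rw [vn_sc_eq_algebraMap]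
  exact IsSelfAdjoint.le_algebraMap_norm_self hz

theorem vn_sc_neg_norm_le (hz : IsSelfAdjoint z) : vn_sc (-‖z‖) ≤ z := by
  rw [vn_sc_eq_algebraMap, map_neg]
  exact IsSelfAdjoint.neg_algebraMap_norm_le_self hz

/-- A selfadjoint operator is a norm limit of real linear combinations of orthogonal projections which
commute with everything that commutes with it. -/
theorem vn_exists_finite_spectrum_approx (hz : IsSelfAdjoint z) {ε : ℝ} (hε : 0 < ε) :
    ∃ (n : ℕ) (e : Fin n → H →L[ℂ] H) (c : Fin n → ℝ),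
      (∀ j, IsStarProjection (e j)) ∧ (∀ j k, j ≠ k → e j * e k = 0) ∧ ∑ j, e j = 1 ∧
      (∀ j, ∀ y : H →L[ℂ] H, Commute y z → Commute y (e j)) ∧ (∀ j, |c j| ≤ ‖z‖) ∧
      ‖z - ∑ j, (c j : ℂ) • e j‖ ≤ ε := by
  set N := ‖z‖ with hN
  have hN0 : 0 ≤ N := norm_nonneg z
  set n : ℕ := ⌈2 * N / ε⌉₊ + 1 with hn
  set t : ℕ → ℝ := fun j => -N - ε + j * ε with ht
  set E : ℕ → H →L[ℂ] H := fun j => vn_specGt z (t j) with hE
  have htmono : ∀ {a b : ℕ}, a ≤ b → t a ≤ t b := by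
    intro a b hab
    have : (a : ℝ) ≤ b := by exact_mod_cast hab
    simp only [ht]
    nlinarith
  have hEp : ∀ j, IsStarProjection (E j) := fun j => vn_specGt_isStarProjection z _
  have hEanti : ∀ {a b : ℕ}, a ≤ b → E b ≤ E a := fun hab => vn_specGt_anti hz (htmono hab)
  have hmul1 : ∀ {a b : ℕ}, a ≤ b → E a * E b = E b := fun hab =>
    ((hEp _).le_iff_mul_eq_right (hEp _)).1 (hEanti hab)
  have hmul2 : ∀ {a b : ℕ}, a ≤ b → E b * E a = E b := fun hab =>
    ((hEp _).le_iff_mul_eq_left (hEp _)).1 (hEanti hab)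
  have hE0 : E 0 = 1 := by
    apply le_antisymm (vn_proj_le_one (hEp 0))
    rw [← vn_specGe_eq_one hz (vn_sc_neg_norm_le hz)]
    exact vn_specGe_le_specGt hz (by simp only [ht]; push_cast; linarith)
  have hEn : E n = 0 := by
    refine vn_specGt_eq_zero hz ((vn_le_sc_norm hz).trans (vn_sc_mono ?_))
    have h1 : 2 * N / ε ≤ ⌈2 * N / ε⌉₊ := Nat.le_ceil _
    have h2 : 2 * N ≤ (⌈2 * N / ε⌉₊ : ℝ) * ε := by
      rwa [div_le_iff₀ hε] at h1
    simp only [ht, hn]
    push_cast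
    linarith
  set e : Fin n → H →L[ℂ] H := fun j => E j - E (j + 1) with he
  set c : Fin n → ℝ := fun j => max (-N) (min N (t (j + 1))) with hc
  have hband := fun j : Fin n => vn_specBand hz (htmono (Nat.le_succ (j : ℕ)))
  have hep : ∀ j, IsStarProjection (e j) := fun j => (hband j).1
  have hsum : ∑ j, e j = 1 := by
    rw [he, Fin.sum_univ_eq_sum_range (fun j => E j - E (j + 1)) n, Finset.sum_range_sub', hE0, hEn,
      sub_zero]
  have hze : ∀ j, Commute z (e j) := fun j =>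
    (vn_commute_self_specGt z _).sub_right (vn_commute_self_specGt z _)
  refine ⟨n, e, c, hep, ?_, hsum, ?_, ?_, ?_⟩
  · intro j k hjk
    simp only [he]
    rcases lt_or_gt_of_ne (fun h => hjk (Fin.ext h) : (j : ℕ) ≠ k) with h | h
    · rw [sub_mul, mul_sub, mul_sub, hmul1 (le_of_lt h), hmul1 (Nat.le_succ_of_le (le_of_lt h)),
        hmul1 (Nat.succ_le_of_lt h), hmul1 (Nat.succ_le_succ (le_of_lt h))]
      abel
    · rw [sub_mul, mul_sub, mul_sub, hmul2 (le_of_lt h), hmul2 (Nat.succ_le_of_lt h),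
        hmul2 (Nat.le_succ_of_le (le_of_lt h)), hmul2 (Nat.succ_le_succ (le_of_lt h))]
      abel
  · intro j y hy
    exact (vn_commute_specGt hy _).sub_right (vn_commute_specGt hy _)
  · intro j
    rw [abs_le]
    exact ⟨le_max_left _ _, max_le (by linarith) (min_le_left _ _)⟩
  · -- the estimate
    have hup : ∀ j, z * e j ≤ vn_sc (c j) * e j := by
      intro j
      have h1 : z * e j ≤ vn_sc (min N (t (j + 1))) * e j := by
        rcases le_total N (t (j + 1)) with h | h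
        · rw [min_eq_left h, ← sub_nonneg, ← sub_mul]
          exact Commute.mul_nonneg (sub_nonneg.2 (vn_le_sc_norm hz)) (hep j).nonneg
            ((vn_sc_commute _ _).sub_left (hze j))
        · rw [min_eq_right h]
          exact (hband j).2.2
      exact h1.trans (vn_sc_mul_proj_mono (hep j) (le_max_right _ _))
    have hlow : ∀ j, vn_sc (c j - ε) * e j ≤ z * e j := by
      intro j
      have h1 : vn_sc (max (-N) (t j)) * e j ≤ z * e j := by
        rcases le_total (-N) (t j) with h | h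
        · rw [max_eq_right h]
          exact (hband j).2.1
        · rw [max_eq_left h, ← sub_nonneg, ← sub_mul]
          exact Commute.mul_nonneg (sub_nonneg.2 (vn_sc_neg_norm_le hz)) (hep j).nonneg
            ((hze j).sub_left (vn_sc_commute _ _))
      refine (vn_sc_mul_proj_mono (hep j) ?_).trans h1
      have h2 : t (j + 1) = t j + ε := by
        simp only [ht]; push_cast; ring
      simp only [hc]
      rw [sub_le_iff_le_add]
      refine max_le ?_ ?_
      · linarith [le_max_left (-N) (t j)]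
      · refine (min_le_right _ _).trans ?_
        rw [h2]
        linarith [le_max_right (-N) (t j)]
    have hy : -(z - ∑ j, (c j : ℂ) • e j) = ∑ j, (vn_sc (c j) * e j - z * e j) := by
      rw [Finset.sum_sub_distrib, ← Finset.mul_sum, hsum, mul_one, neg_sub]
      simp [vn_sc]
    rw [← norm_neg, hy]
    refine vn_norm_le_of_le_sc (Finset.sum_nonneg fun j _ => sub_nonneg.2 (hup j)) hε.le ?_
    have h3 : (vn_sc ε : H →L[ℂ] H) = ∑ j, vn_sc ε * e j := by
      rw [← Finset.mul_sum, hsum, mul_one]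
    rw [h3]
    refine Finset.sum_le_sum fun j _ => ?_
    have h4 := hlow j
    have h5 : (vn_sc (c j - ε) : H →L[ℂ] H) = vn_sc (c j) - vn_sc ε := by
      simp only [vn_sc]
      push_cast
      rw [sub_smul]
    rw [h5, sub_mul] at h4
    rw [sub_le_iff_le_add]
    rw [sub_le_iff_le_add] at h4
    rwa [add_comm]

end Claimed.Agent.R302
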