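import Claimed.Agent.R302.VN.Mono

/-!
# R302 / VN toolkit, file 3: projections

Owner: helper268.
* `vn_projOn K`: the orthogonal projection onto the closure of a subspace `K`;
* `vn_rangeProj z`: the range projection (left support) of `z`;
* `vn_projSup p`, `vn_projInf p`: supremum and infimum of a family of projections.
Every construction comes with a commutation lemma and a membership lemma for von Neumann algebras.
-/

set_option autoImplicit false
set_option linter.unusedSectionVars false

open scoped InnerProductSpace ComplexOrder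
open Filter Topology

namespace Claimed.Agent.R302

variable {H : Type*} [NormedAddCommGroup H] [InnerProductSpace ℂ H] [CompleteSpace H]

/-! ### Generalities on projections -/

theorem vn_inner_sa {a : H →L[ℂ] H} (ha : IsSelfAdjoint a) (ξ η : H) :
    ⟪ξ, a η⟫_ℂ = ⟪a ξ, η⟫_ℂ :=
  ((ContinuousLinearMap.isSelfAdjoint_iff_isSymmetric.1 ha) ξ η).symm

theorem vn_inner_star (a : H →L[ℂ] H) (ξ η : H) : ⟪ξ, star a η⟫_ℂ = ⟪a ξ, η⟫_ℂ := by
  rw [ContinuousLinearMap.star_eq_adjoint, ContinuousLinearMap.adjoint_inner_right]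

theorem vn_mul_apply (a b : H →L[ℂ] H) (ξ : H) : (a * b) ξ = a (b ξ) := rfl

theorem vn_proj_apply_apply {p : H →L[ℂ] H} (hp : IsStarProjection p) (ξ : H) : p (p ξ) = p ξ := by
  rw [← vn_mul_apply, hp.isIdempotentElem.eq]

theorem vn_mem_range {z : H →L[ℂ] H} {ξ : H} :
    ξ ∈ LinearMap.range (z : H →ₗ[ℂ] H) ↔ ∃ η, z η = ξ := by
  simp [LinearMap.mem_range]

theorem vn_apply_mem_range (z : H →L[ℂ] H) (ξ : H) : z ξ ∈ LinearMap.range (z : H →ₗ[ℂ] H) :=
  vn_mem_range.2 ⟨ξ, rfl⟩

theorem vn_proj_apply_eq_iff {p : H →L[ℂ] H} (hp : IsStarProjection p) (ξ : H) :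
    p ξ = ξ ↔ ξ ∈ LinearMap.range (p : H →ₗ[ℂ] H) := by
  rw [vn_mem_range]
  constructor
  · intro h
    exact ⟨ξ, h⟩
  · rintro ⟨η, rfl⟩
    exact vn_proj_apply_apply hp η

theorem vn_proj_norm_le {p : H →L[ℂ] H} (hp : IsStarProjection p) : ‖p‖ ≤ 1 :=
  IsStarProjection.norm_le p hp

theorem vn_proj_nonneg {p : H →L[ℂ] H} (hp : IsStarProjection p) : 0 ≤ p := hp.nonneg

theorem vn_proj_le_one {p : H →L[ℂ] H} (hp : IsStarProjection p) : p ≤ 1 :=
  sub_nonneg.1 hp.one_sub.nonneg

/-- `⟪ξ, p ξ⟫ = ‖p ξ‖²`. -/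
theorem vn_proj_inner_self {p : H →L[ℂ] H} (hp : IsStarProjection p) (ξ : H) :
    ⟪ξ, p ξ⟫_ℂ = ((‖p ξ‖ ^ 2 : ℝ) : ℂ) := by
  rw [← vn_proj_apply_apply hp ξ, vn_inner_sa hp.isSelfAdjoint, vn_proj_apply_apply hp,
    inner_self_eq_norm_sq_to_K]
  norm_cast

/-- `‖ξ‖² = ‖p ξ‖² + ‖(1 - p) ξ‖²`. -/
theorem vn_proj_pythagoras {p : H →L[ℂ] H} (hp : IsStarProjection p) (ξ : H) :
    ‖ξ‖ ^ 2 = ‖p ξ‖ ^ 2 + ‖(1 - p) ξ‖ ^ 2 := by
  have h0 : ⟪p ξ, (1 - p) ξ⟫_ℂ = 0 := by
    rw [← vn_inner_sa hp.isSelfAdjoint]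
    simp [vn_proj_apply_apply hp]
  have h1 : ξ = p ξ + (1 - p) ξ := by simp
  conv_lhs => rw [h1]
  rw [@norm_add_sq ℂ, h0]
  simp

/-- Order of projections in terms of fixed vectors. -/
theorem vn_proj_le_iff {p q : H →L[ℂ] H} (hp : IsStarProjection p) (hq : IsStarProjection q) :
    p ≤ q ↔ ∀ ξ : H, p ξ = ξ → q ξ = ξ := by
  rw [hp.le_iff_mul_eq_right hq]
  constructor
  · intro h ξ hξ
    rw [← hξ, ← vn_mul_apply, h]
  · intro h
    ext ξ
    exact h _ (vn_proj_apply_apply hp ξ)

/-- For `0 ≤ a ≤ 1` and a projection `p`: `a ≤ p ↔ p * a = a`. -/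
theorem vn_le_proj_iff {a p : H →L[ℂ] H} (ha : 0 ≤ a) (ha1 : a ≤ 1) (hp : IsStarProjection p) :
    a ≤ p ↔ p * a = a := by
  constructor
  · intro h
    exact (hp.mul_right_and_mul_left_of_nonneg_of_le ha h).2
  · intro h
    have h' : a * p = a := by
      have := congrArg star h
      simpa [ha.isSelfAdjoint.star_eq, hp.isSelfAdjoint.star_eq] using this
    have h1 := star_left_conjugate_le_conjugate ha1 p
    rw [hp.isSelfAdjoint.star_eq, h, h', mul_one, hp.isIdempotentElem.eq] at h1
    exact h1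

/-- For `0 ≤ a` and any `p` : `p* * a * p = 0 ↔ a * p = 0`. -/
theorem vn_conj_proj_eq_zero_iff {a p : H →L[ℂ] H} (ha : 0 ≤ a) :
    star p * a * p = 0 ↔ a * p = 0 := by
  constructor
  · intro h
    set b := CFC.sqrt a with hb
    have hbb : b * b = a := CFC.sqrt_mul_sqrt_self a ha
    have hbs : IsSelfAdjoint b := (CFC.sqrt_nonneg a).isSelfAdjoint
    have h1 : star (b * p) * (b * p) = 0 := by
      rw [star_mul, hbs.star_eq, ← h, ← hbb]
      simp only [mul_assoc]
    have h2 : b * p = 0 := CStarRing.star_mul_self_eq_zero_iff _ |>.1 h1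
    rw [← hbb, mul_assoc, h2, mul_zero]
  · intro h
    rw [mul_assoc, h, mul_zero]

/-- Orthogonal projections: `p * q = 0 ↔ p ≤ 1 - q`. -/
theorem vn_proj_mul_eq_zero_iff {p q : H →L[ℂ] H} (hp : IsStarProjection p)
    (hq : IsStarProjection q) : p * q = 0 ↔ p ≤ 1 - q := by
  rw [hp.le_iff_mul_eq_left hq.one_sub, mul_sub, mul_one, sub_eq_self]

/-- A finite sum of pairwise orthogonal projections is a projection. -/
theorem vn_isStarProjection_sum {κ : Type*} (s : Finset κ) (p : κ → H →L[ℂ] H)
    (hp : ∀ k ∈ s, IsStarProjection (p k)) (horth : ∀ k ∈ s, ∀ k' ∈ s, k ≠ k' → p k * p k' = 0) :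
    IsStarProjection (∑ k ∈ s, p k) := by
  classical
  induction s using Finset.induction_on with
  | empty => simp
  | insert k s hk ih =>
    rw [Finset.sum_insert hk]
    refine (hp k (Finset.mem_insert_self _ _)).add
      (ih (fun j hj => hp j (Finset.mem_insert_of_mem hj))
        (fun j hj j' hj' => horth j (Finset.mem_insert_of_mem hj) j' (Finset.mem_insert_of_mem hj')))
      ?_
    rw [Finset.mul_sum]
    refine Finset.sum_eq_zero fun j hj => ?_
    exact horth k (Finset.mem_insert_self _ _) j (Finset.mem_insert_of_mem hj)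
      (fun h => hk (h ▸ hj))

/-! ### The projection onto the closure of a subspace -/

/-- The orthogonal projection onto the closure of the subspace `K`. -/
noncomputable def vn_projOn (K : Submodule ℂ H) : H →L[ℂ] H :=
  K.topologicalClosure.starProjection

theorem vn_projOn_isStarProjection (K : Submodule ℂ H) : IsStarProjection (vn_projOn K) :=
  isStarProjection_starProjection

theorem vn_projOn_apply_eq_iff {K : Submodule ℂ H} {ξ : H} :
    vn_projOn K ξ = ξ ↔ ξ ∈ K.topologicalClosure :=
  Submodule.starProjection_eq_self_iff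

theorem vn_projOn_apply_of_mem {K : Submodule ℂ H} {ξ : H} (h : ξ ∈ K) : vn_projOn K ξ = ξ :=
  vn_projOn_apply_eq_iff.2 (K.le_topologicalClosure h)

theorem vn_projOn_apply_mem (K : Submodule ℂ H) (ξ : H) :
    vn_projOn K ξ ∈ K.topologicalClosure :=
  Submodule.starProjection_apply_mem _ _

theorem vn_projOn_apply_eq_zero_iff {K : Submodule ℂ H} {ξ : H} :
    vn_projOn K ξ = 0 ↔ ∀ η ∈ K, ⟪η, ξ⟫_ℂ = 0 := by
  rw [vn_projOn, Submodule.starProjection_apply_eq_zero_iff, Submodule.orthogonal_closure,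
    Submodule.mem_orthogonal]

theorem vn_projOn_eq_one_iff {K : Submodule ℂ H} :
    vn_projOn K = 1 ↔ Dense (K : Set H) := by
  rw [Submodule.dense_iff_topologicalClosure_eq_top, eq_top_iff]
  constructor
  · intro h ξ _
    rw [← vn_projOn_apply_eq_iff, h]
    rfl
  · intro h
    ext ξ
    exact vn_projOn_apply_eq_iff.2 (h trivial)

/-- Two operators which agree on `K` agree on its closure. -/
theorem vn_eqOn_closure {K : Submodule ℂ H} {y y' : H →L[ℂ] H} (h : ∀ ξ ∈ K, y ξ = y' ξ) :
    ∀ ξ ∈ K.topologicalClosure, y ξ = y' ξ := by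
  intro ξ hξ
  have h1 : Set.EqOn y y' (closure (K : Set H)) :=
    Set.EqOn.closure (fun ξ hξ => h ξ hξ) y.continuous y'.continuous
  exact h1 (by rwa [← Submodule.topologicalClosure_coe])

/-- Every projection is the projection onto its range. -/
theorem vn_projOn_range {p : H →L[ℂ] H} (hp : IsStarProjection p) :
    vn_projOn (LinearMap.range (p : H →ₗ[ℂ] H)) = p := by
  have hq := vn_projOn_isStarProjection (LinearMap.range (p : H →ₗ[ℂ] H))
  apply le_antisymm
  · rw [vn_proj_le_iff hq hp]
    intro ξ hξ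
    exact vn_eqOn_closure (y := p) (y' := 1) (fun η hη => (vn_proj_apply_eq_iff hp η).2 hη) ξ
      (vn_projOn_apply_eq_iff.1 hξ)
  · rw [vn_proj_le_iff hp hq]
    intro ξ hξ
    exact vn_projOn_apply_of_mem ((vn_proj_apply_eq_iff hp ξ).1 hξ)

theorem vn_projOn_le_iff {K : Submodule ℂ H} {q : H →L[ℂ] H} (hq : IsStarProjection q) :
    vn_projOn K ≤ q ↔ ∀ ξ ∈ K, q ξ = ξ := by
  rw [vn_proj_le_iff (vn_projOn_isStarProjection K) hq]
  constructor
  · intro h ξ hξ
    exact h ξ (vn_projOn_apply_of_mem hξ)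
  · intro h ξ hξ
    exact vn_eqOn_closure (y := q) (y' := 1) h ξ (vn_projOn_apply_eq_iff.1 hξ)

theorem vn_projOn_mono {K L : Submodule ℂ H} (h : K ≤ L) : vn_projOn K ≤ vn_projOn L := by
  rw [vn_projOn_le_iff (vn_projOn_isStarProjection L)]
  intro ξ hξ
  exact vn_projOn_apply_of_mem (h hξ)

/-- Two operators agree on `K` iff they agree after multiplication by `vn_projOn K`. -/
theorem vn_mul_projOn_eq_iff {K : Submodule ℂ H} {y y' : H →L[ℂ] H} :
    y * vn_projOn K = y' * vn_projOn K ↔ ∀ ξ ∈ K, y ξ = y' ξ := by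
  constructor
  · intro h ξ hξ
    have := congrArg (fun a : H →L[ℂ] H => a ξ) h
    simpa [vn_mul_apply, vn_projOn_apply_of_mem hξ] using this
  · intro h
    ext ξ
    exact vn_eqOn_closure h _ (vn_projOn_apply_mem K ξ)

theorem vn_mul_projOn_eq_zero_iff {K : Submodule ℂ H} {y : H →L[ℂ] H} :
    y * vn_projOn K = 0 ↔ ∀ ξ ∈ K, y ξ = 0 := by
  have := vn_mul_projOn_eq_iff (K := K) (y := y) (y' := 0)
  simpa using this

/-- `y K ⊆ K` gives `(1 - p) y p = 0`, i.e. `p y p = y p`. -/
theorem vn_projOn_mul_mul_of_invariant {K : Submodule ℂ H} {y : H →L[ℂ] H}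
    (h : ∀ ξ ∈ K, y ξ ∈ K) : vn_projOn K * y * vn_projOn K = y * vn_projOn K := by
  ext ξ
  rw [mul_assoc, vn_mul_apply, vn_projOn_apply_eq_iff, vn_mul_apply]
  have h1 := vn_projOn_apply_mem K ξ
  rw [← SetLike.mem_coe, Submodule.topologicalClosure_coe] at h1 ⊢
  exact map_mem_closure y.continuous h1 (fun ξ hξ => h ξ hξ)

theorem vn_commute_projOn {K : Submodule ℂ H} {y : H →L[ℂ] H} (h : ∀ ξ ∈ K, y ξ ∈ K)
    (h' : ∀ ξ ∈ K, star y ξ ∈ K) : Commute y (vn_projOn K) := by
  have hp := (vn_projOn_isStarProjection K).isSelfAdjoint.star_eq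
  have h1 := vn_projOn_mul_mul_of_invariant h
  have h2 := congrArg star (vn_projOn_mul_mul_of_invariant h')
  simp only [star_mul, star_star, hp] at h2
  rw [← mul_assoc] at h2
  exact h1.symm.trans h2

/-- A subspace invariant under the commutant `M'` has its projection in `M`. -/
theorem vn_projOn_mem (M : VonNeumannAlgebra H) {K : Submodule ℂ H}
    (h : ∀ y ∈ M.commutant, ∀ ξ ∈ K, y ξ ∈ K) : vn_projOn K ∈ M := by
  rw [vn_mem_iff_commute]
  intro y hy
  exact vn_commute_projOn (h y hy) (h (star y) (star_mem hy))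

/-! ### Range projections -/

/-- The range projection (left support) of `z`: the projection onto the closure of the range. -/
noncomputable def vn_rangeProj (z : H →L[ℂ] H) : H →L[ℂ] H :=
  vn_projOn (LinearMap.range (z : H →ₗ[ℂ] H))

theorem vn_rangeProj_isStarProjection (z : H →L[ℂ] H) : IsStarProjection (vn_rangeProj z) :=
  vn_projOn_isStarProjection _

theorem vn_rangeProj_star_eq (z : H →L[ℂ] H) : star (vn_rangeProj z) = vn_rangeProj z :=
  (vn_rangeProj_isStarProjection z).isSelfAdjoint.star_eq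

theorem vn_rangeProj_mul_self (z : H →L[ℂ] H) : vn_rangeProj z * z = z := by
  ext ξ
  exact vn_projOn_apply_of_mem (vn_apply_mem_range z ξ)

/-- `z * s(z*) = z`: the range projection of `z*` is the right support of `z`. -/
theorem vn_mul_rangeProj_star (z : H →L[ℂ] H) : z * vn_rangeProj (star z) = z := by
  have := congrArg star (vn_rangeProj_mul_self (star z))
  simpa [vn_rangeProj_star_eq] using this

theorem vn_mul_rangeProj_eq_iff {y y' z : H →L[ℂ] H} :
    y * vn_rangeProj z = y' * vn_rangeProj z ↔ y * z = y' * z := by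
  rw [vn_rangeProj, vn_mul_projOn_eq_iff]
  constructor
  · intro h
    ext ξ
    exact h _ (vn_apply_mem_range z ξ)
  · intro h ξ hξ
    obtain ⟨η, rfl⟩ := vn_mem_range.1 hξ
    exact congrArg (fun a : H →L[ℂ] H => a η) h

theorem vn_mul_rangeProj_eq_zero_iff {y z : H →L[ℂ] H} : y * vn_rangeProj z = 0 ↔ y * z = 0 := by
  have := vn_mul_rangeProj_eq_iff (y := y) (y' := 0) (z := z)
  simpa using this

theorem vn_rangeProj_star_mul_eq_zero_iff {y z : H →L[ℂ] H} :
    vn_rangeProj (star z) * y = 0 ↔ z * y = 0 := by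
  have h := vn_mul_rangeProj_eq_zero_iff (y := star y) (z := star z)
  rw [← star_inj (x := vn_rangeProj (star z) * y), ← star_inj (x := z * y)]
  simpa [vn_rangeProj_star_eq] using h

/-- Minimality of the range projection. -/
theorem vn_rangeProj_le_iff {z q : H →L[ℂ] H} (hq : IsStarProjection q) :
    vn_rangeProj z ≤ q ↔ q * z = z := by
  rw [vn_rangeProj, vn_projOn_le_iff hq]
  constructor
  · intro h
    ext ξ
    exact h _ (vn_apply_mem_range z ξ)
  · intro h ξ hξ
    obtain ⟨η, rfl⟩ := vn_mem_range.1 hξ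
    exact congrArg (fun a : H →L[ℂ] H => a η) h

theorem vn_rangeProj_eq_zero_iff {z : H →L[ℂ] H} : vn_rangeProj z = 0 ↔ z = 0 := by
  have := vn_mul_rangeProj_eq_zero_iff (y := 1) (z := z)
  simpa using this

theorem vn_rangeProj_of_isStarProjection {p : H →L[ℂ] H} (hp : IsStarProjection p) :
    vn_rangeProj p = p :=
  vn_projOn_range hp

/-- The kernel of `z` is the range of `1 - s(z*)`. -/
theorem vn_apply_eq_zero_iff (z : H →L[ℂ] H) (ξ : H) :
    z ξ = 0 ↔ vn_rangeProj (star z) ξ = 0 := by
  rw [vn_rangeProj, vn_projOn_apply_eq_zero_iff]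
  constructor
  · intro h η hη
    obtain ⟨ζ, rfl⟩ := vn_mem_range.1 hη
    rw [← inner_conj_symm, vn_inner_star, h]
    simp
  · intro h
    apply ext_inner_left ℂ
    intro ζ
    have := h _ (vn_apply_mem_range (star z) ζ)
    rw [← inner_conj_symm, vn_inner_star] at this
    rw [inner_zero_right, ← inner_conj_symm, this]

theorem vn_rangeProj_mul_le (z w : H →L[ℂ] H) : vn_rangeProj (z * w) ≤ vn_rangeProj z := by
  rw [vn_rangeProj_le_iff (vn_rangeProj_isStarProjection z), ← mul_assoc, vn_rangeProj_mul_self]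

theorem vn_rangeProj_mul_star_self (z : H →L[ℂ] H) :
    vn_rangeProj (z * star z) = vn_rangeProj z := by
  apply le_antisymm (vn_rangeProj_mul_le _ _)
  set q := vn_rangeProj (z * star z) with hq
  have hqp : IsStarProjection q := vn_rangeProj_isStarProjection _
  rw [vn_rangeProj_le_iff hqp]
  have h1 : (1 - q) * (z * star z) = 0 := by
    rw [sub_mul, one_mul, vn_rangeProj_mul_self, sub_self]
  have h2 : ((1 - q) * z) * star ((1 - q) * z) = 0 := by
    rw [star_mul, ← mul_assoc, mul_assoc (1 - q), h1, zero_mul]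
  have h3 : (1 - q) * z = 0 := (CStarRing.mul_star_self_eq_zero_iff _).1 h2
  rw [sub_mul, one_mul, sub_eq_zero] at h3
  exact h3.symm

theorem vn_rangeProj_smul {c : ℂ} (hc : c ≠ 0) (z : H →L[ℂ] H) :
    vn_rangeProj (c • z) = vn_rangeProj z := by
  apply le_antisymm
  · rw [vn_rangeProj_le_iff (vn_rangeProj_isStarProjection z), mul_smul_comm, vn_rangeProj_mul_self]
  · rw [vn_rangeProj_le_iff (vn_rangeProj_isStarProjection _)]
    have h := vn_rangeProj_mul_self (c • z)
    rw [mul_smul_comm] at h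
    exact smul_right_injective _ hc h

/-- For `0 ≤ a ≤ b`: `s(a) ≤ s(b)`. -/
theorem vn_rangeProj_mono {a b : H →L[ℂ] H} (ha : 0 ≤ a) (hab : a ≤ b) :
    vn_rangeProj a ≤ vn_rangeProj b := by
  set s := vn_rangeProj b with hs
  have hsp : IsStarProjection s := vn_rangeProj_isStarProjection _
  have hq : star (1 - s) = 1 - s := hsp.one_sub.isSelfAdjoint.star_eq
  rw [vn_rangeProj_le_iff hsp]
  have h1 : (1 - s) * b = 0 := by rw [sub_mul, one_mul, vn_rangeProj_mul_self, sub_self]
  have h2 : star (1 - s) * a * (1 - s) ≤ 0 := by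
    have := star_left_conjugate_le_conjugate hab (1 - s)
    rw [hq, h1, zero_mul] at this
    rwa [hq]
  have h3 : star (1 - s) * a * (1 - s) = 0 :=
    le_antisymm h2 (star_left_conjugate_nonneg ha _)
  have h4 : a * (1 - s) = 0 := (vn_conj_proj_eq_zero_iff ha).1 h3
  have h5 := congrArg star h4
  rw [star_mul, hq, ha.isSelfAdjoint.star_eq, star_zero, sub_mul, one_mul, sub_eq_zero] at h5
  exact h5.symm

/-- For `0 ≤ a ≤ 1`: `a ≤ s(a)`. -/
theorem vn_le_rangeProj {a : H →L[ℂ] H} (ha : 0 ≤ a) (ha1 : a ≤ 1) : a ≤ vn_rangeProj a :=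
  (vn_le_proj_iff ha ha1 (vn_rangeProj_isStarProjection a)).2 (vn_rangeProj_mul_self a)

/-- For `0 ≤ a`: `a ≤ ‖a‖ s(a)`. -/
theorem vn_le_norm_smul_rangeProj {a : H →L[ℂ] H} (ha : 0 ≤ a) :
    a ≤ (‖a‖ : ℂ) • vn_rangeProj a := by
  set s := vn_rangeProj a with hs
  have hsp : IsStarProjection s := vn_rangeProj_isStarProjection _
  have h1 : a ≤ (‖a‖ : ℂ) • (1 : H →L[ℂ] H) := by
    have := IsSelfAdjoint.le_algebraMap_norm_self (a := a) ha.isSelfAdjoint
    rw [Algebra.algebraMap_eq_smul_one] at this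
    rwa [Complex.coe_smul]
  have h2 := star_left_conjugate_le_conjugate h1 s
  have h3 : s * a = a := vn_rangeProj_mul_self a
  have h4 : a * s = a := by
    have := congrArg star h3
    simpa [ha.isSelfAdjoint.star_eq, hsp.isSelfAdjoint.star_eq] using this
  rw [hsp.isSelfAdjoint.star_eq, h3, h4, mul_smul_comm, mul_one, smul_mul_assoc,
    hsp.isIdempotentElem.eq] at h2
  exact h2

/-- If `y` commutes with `star z` then `star y` commutes with `z`. -/
theorem vn_commute_star_left {y z : H →L[ℂ] H} (h : Commute y (star z)) : Commute (star y) z := by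
  have := h.star_star
  rwa [star_star] at this

/-- The range projection commutes with everything that commutes with `z` and `z*`. -/
theorem vn_commute_rangeProj {y z : H →L[ℂ] H} (h : Commute y z) (h' : Commute y (star z)) :
    Commute y (vn_rangeProj z) := by
  refine vn_commute_projOn ?_ ?_
  · intro ξ hξ
    obtain ⟨η, rfl⟩ := vn_mem_range.1 hξ
    rw [← vn_mul_apply, h.eq]
    exact vn_apply_mem_range z _
  · intro ξ hξ
    obtain ⟨η, rfl⟩ := vn_mem_range.1 hξ
    rw [← vn_mul_apply, (vn_commute_star_left h').eq]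
    exact vn_apply_mem_range z _

theorem vn_rangeProj_mem (M : VonNeumannAlgebra H) {z : H →L[ℂ] H} (hz : z ∈ M) :
    vn_rangeProj z ∈ M := by
  rw [vn_mem_iff_commute]
  intro y hy
  exact vn_commute_rangeProj ((vn_mem_iff_commute M z).1 hz y hy)
    ((vn_mem_iff_commute M _).1 (star_mem hz) y hy)

/-- Conjugating a projection by a unitary gives a projection. -/
theorem vn_isStarProjection_conj {u p : H →L[ℂ] H} (hu : star u * u = 1)
    (hp : IsStarProjection p) : IsStarProjection (u * p * star u) := by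
  constructor
  · show u * p * star u * (u * p * star u) = u * p * star u
    calc u * p * star u * (u * p * star u) = u * p * (star u * u) * p * star u := by
          simp only [mul_assoc]
      _ = u * (p * p) * star u := by rw [hu]; simp only [mul_assoc, mul_one]
      _ = u * p * star u := by rw [hp.isIdempotentElem.eq]
  · show star (u * p * star u) = u * p * star u
    simp [mul_assoc, hp.isSelfAdjoint.star_eq]

/-- Conjugation by a unitary. -/
theorem vn_rangeProj_conj {u : H →L[ℂ] H} (hu : u ∈ unitary (H →L[ℂ] H)) (z : H →L[ℂ] H) :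
    vn_rangeProj (u * z * star u) = u * vn_rangeProj z * star u := by
  have h1 : star u * u = 1 := (Unitary.mem_iff.1 hu).1
  have h2 : u * star u = 1 := (Unitary.mem_iff.1 hu).2
  have key : ∀ (v w : H →L[ℂ] H), star v * v = 1 →
      vn_rangeProj (v * w * star v) ≤ v * vn_rangeProj w * star v := by
    intro v w hv
    rw [vn_rangeProj_le_iff (vn_isStarProjection_conj hv (vn_rangeProj_isStarProjection w))]
    calc v * vn_rangeProj w * star v * (v * w * star v)
        = v * vn_rangeProj w * (star v * v) * w * star v := by simp only [mul_assoc]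
      _ = v * (vn_rangeProj w * w) * star v := by rw [hv]; simp only [mul_assoc, mul_one]
      _ = v * w * star v := by rw [vn_rangeProj_mul_self]
  apply le_antisymm (key u z h1)
  have h3 := key (star u) (u * z * star u) (by rw [star_star]; exact h2)
  rw [star_star] at h3
  have h4 : star u * (u * z * star u) * u = z := by
    calc star u * (u * z * star u) * u = (star u * u) * z * (star u * u) := by
          simp only [mul_assoc]
      _ = z := by rw [h1]; simp
  rw [h4] at h3
  have h5 := star_right_conjugate_le_conjugate h3 u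
  calc u * vn_rangeProj z * star u ≤ u * (star u * vn_rangeProj (u * z * star u) * u) * star u := h5
    _ = (u * star u) * vn_rangeProj (u * z * star u) * (u * star u) := by simp only [mul_assoc]
    _ = vn_rangeProj (u * z * star u) := by rw [h2]; simp

/-! ### Suprema and infima of projections -/

variable {κ : Type*}

/-- The supremum of a family of projections: the projection onto the closed span of the ranges. -/
noncomputable def vn_projSup (p : κ → H →L[ℂ] H) : H →L[ℂ] H :=
  vn_projOn (⨆ k, LinearMap.range (p k : H →ₗ[ℂ] H))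

/-- The infimum of a family of projections: the projection onto the intersection of the ranges. -/
noncomputable def vn_projInf (p : κ → H →L[ℂ] H) : H →L[ℂ] H :=
  vn_projOn (⨅ k, LinearMap.range (p k : H →ₗ[ℂ] H))

theorem vn_projSup_isStarProjection (p : κ → H →L[ℂ] H) : IsStarProjection (vn_projSup p) :=
  vn_projOn_isStarProjection _

theorem vn_projInf_isStarProjection (p : κ → H →L[ℂ] H) : IsStarProjection (vn_projInf p) :=
  vn_projOn_isStarProjection _

theorem vn_le_projSup {p : κ → H →L[ℂ] H} (hp : ∀ k, IsStarProjection (p k)) (k : κ) :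
    p k ≤ vn_projSup p := by
  rw [vn_proj_le_iff (hp k) (vn_projSup_isStarProjection p)]
  intro ξ hξ
  exact vn_projOn_apply_of_mem
    (le_iSup (fun k => LinearMap.range (p k : H →ₗ[ℂ] H)) k ((vn_proj_apply_eq_iff (hp k) ξ).1 hξ))

theorem vn_projSup_le_iff {p : κ → H →L[ℂ] H} (hp : ∀ k, IsStarProjection (p k))
    {q : H →L[ℂ] H} (hq : IsStarProjection q) : vn_projSup p ≤ q ↔ ∀ k, p k ≤ q := by
  constructor
  · intro h k
    exact (vn_le_projSup hp k).trans h
  · intro h
    rw [vn_projSup, vn_projOn_le_iff hq]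
    have h1 : (⨆ k, LinearMap.range (p k : H →ₗ[ℂ] H)) ≤ LinearMap.range (q : H →ₗ[ℂ] H) := by
      refine iSup_le fun k ξ hξ => ?_
      rw [← vn_proj_apply_eq_iff hq]
      exact (vn_proj_le_iff (hp k) hq).1 (h k) ξ ((vn_proj_apply_eq_iff (hp k) ξ).2 hξ)
    intro ξ hξ
    exact (vn_proj_apply_eq_iff hq ξ).2 (h1 hξ)

theorem vn_projInf_le {p : κ → H →L[ℂ] H} (hp : ∀ k, IsStarProjection (p k)) (k : κ) :
    vn_projInf p ≤ p k := by
  rw [vn_projInf, vn_projOn_le_iff (hp k)]
  intro ξ hξ
  exact (vn_proj_apply_eq_iff (hp k) ξ).2 ((Submodule.mem_iInf _).1 hξ k)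

theorem vn_projInf_apply_eq_iff {p : κ → H →L[ℂ] H} (hp : ∀ k, IsStarProjection (p k)) (ξ : H) :
    vn_projInf p ξ = ξ ↔ ∀ k, p k ξ = ξ := by
  constructor
  · intro h k
    exact (vn_proj_le_iff (vn_projInf_isStarProjection p) (hp k)).1 (vn_projInf_le hp k) ξ h
  · intro h
    exact vn_projOn_apply_of_mem
      ((Submodule.mem_iInf _).2 fun k => (vn_proj_apply_eq_iff (hp k) ξ).1 (h k))

theorem vn_le_projInf_iff {p : κ → H →L[ℂ] H} (hp : ∀ k, IsStarProjection (p k))
    {q : H →L[ℂ] H} (hq : IsStarProjection q) : q ≤ vn_projInf p ↔ ∀ k, q ≤ p k := by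
  constructor
  · intro h k
    exact h.trans (vn_projInf_le hp k)
  · intro h
    rw [vn_proj_le_iff hq (vn_projInf_isStarProjection p)]
    intro ξ hξ
    exact (vn_projInf_apply_eq_iff hp ξ).2 fun k => (vn_proj_le_iff hq (hp k)).1 (h k) ξ hξ

/-- De Morgan. -/
theorem vn_one_sub_projSup {p : κ → H →L[ℂ] H} (hp : ∀ k, IsStarProjection (p k)) :
    1 - vn_projSup p = vn_projInf fun k => 1 - p k := by
  have hp' : ∀ k, IsStarProjection (1 - p k) := fun k => (hp k).one_sub
  apply le_antisymm
  · rw [vn_le_projInf_iff hp' (vn_projSup_isStarProjection p).one_sub]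
    intro k
    exact sub_le_sub_left (vn_le_projSup hp k) 1
  · rw [le_sub_comm, vn_projSup_le_iff hp (vn_projInf_isStarProjection _).one_sub]
    intro k
    rw [le_sub_comm]
    exact vn_projInf_le hp' k

theorem vn_one_sub_projInf {p : κ → H →L[ℂ] H} (hp : ∀ k, IsStarProjection (p k)) :
    1 - vn_projInf p = vn_projSup fun k => 1 - p k := by
  have h := vn_one_sub_projSup (p := fun k => 1 - p k) fun k => (hp k).one_sub
  simp only [sub_sub_cancel] at h
  rw [← h, sub_sub_cancel]

theorem vn_projSup_apply_eq_zero_iff {p : κ → H →L[ℂ] H} (hp : ∀ k, IsStarProjection (p k))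
    (ξ : H) : vn_projSup p ξ = 0 ↔ ∀ k, p k ξ = 0 := by
  have h := vn_projInf_apply_eq_iff (p := fun k => 1 - p k) (fun k => (hp k).one_sub) ξ
  rw [← vn_one_sub_projSup hp] at h
  simpa [sub_eq_self] using h

theorem vn_mul_projSup_eq_zero_iff {p : κ → H →L[ℂ] H} {y : H →L[ℂ] H} :
    y * vn_projSup p = 0 ↔ ∀ k, y * p k = 0 := by
  rw [vn_projSup, vn_mul_projOn_eq_zero_iff]
  constructor
  · intro h k
    ext ξ
    exact h _ (le_iSup (fun k => LinearMap.range (p k : H →ₗ[ℂ] H)) k (vn_apply_mem_range _ ξ))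
  · intro h
    have h1 : (⨆ k, LinearMap.range (p k : H →ₗ[ℂ] H)) ≤ LinearMap.ker (y : H →ₗ[ℂ] H) := by
      refine iSup_le fun k ξ hξ => ?_
      obtain ⟨η, rfl⟩ := vn_mem_range.1 hξ
      rw [LinearMap.mem_ker]
      exact congrArg (fun a : H →L[ℂ] H => a η) (h k)
    intro ξ hξ
    exact h1 hξ

theorem vn_commute_projSup {p : κ → H →L[ℂ] H} (hp : ∀ k, IsStarProjection (p k))
    {y : H →L[ℂ] H} (h : ∀ k, Commute y (p k)) : Commute y (vn_projSup p) := by
  have key : ∀ w : H →L[ℂ] H, (∀ k, Commute w (p k)) →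
      ∀ ξ ∈ (⨆ k, LinearMap.range (p k : H →ₗ[ℂ] H)),
        w ξ ∈ (⨆ k, LinearMap.range (p k : H →ₗ[ℂ] H)) := by
    intro w hw
    have h1 : (⨆ k, LinearMap.range (p k : H →ₗ[ℂ] H)) ≤
        (⨆ k, LinearMap.range (p k : H →ₗ[ℂ] H)).comap (w : H →ₗ[ℂ] H) := by
      refine iSup_le fun k ξ hξ => ?_
      obtain ⟨η, rfl⟩ := vn_mem_range.1 hξ
      rw [Submodule.mem_comap]
      refine le_iSup (fun k => LinearMap.range (p k : H →ₗ[ℂ] H)) k ?_
      show w (p k η) ∈ _
      rw [← vn_mul_apply, (hw k).eq]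
      exact vn_apply_mem_range _ _
    intro ξ hξ
    exact h1 hξ
  refine vn_commute_projOn (key y h) (key (star y) fun k => ?_)
  apply vn_commute_star_left
  rw [(hp k).isSelfAdjoint.star_eq]
  exact h k

theorem vn_commute_projInf {p : κ → H →L[ℂ] H} (hp : ∀ k, IsStarProjection (p k))
    {y : H →L[ℂ] H} (h : ∀ k, Commute y (p k)) : Commute y (vn_projInf p) := by
  have h1 : Commute y (vn_projSup fun k => 1 - p k) :=
    vn_commute_projSup (fun k => (hp k).one_sub) fun k => (Commute.one_right y).sub_right (h k)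
  rw [← vn_one_sub_projInf hp] at h1
  have := (Commute.one_right y).sub_right h1
  rwa [sub_sub_cancel] at this

theorem vn_projSup_mem (M : VonNeumannAlgebra H) {p : κ → H →L[ℂ] H}
    (hp : ∀ k, IsStarProjection (p k)) (hM : ∀ k, p k ∈ M) : vn_projSup p ∈ M := by
  rw [vn_mem_iff_commute]
  intro y hy
  exact vn_commute_projSup hp fun k => (vn_mem_iff_commute M _).1 (hM k) y hy

theorem vn_projInf_mem (M : VonNeumannAlgebra H) {p : κ → H →L[ℂ] H}
    (hp : ∀ k, IsStarProjection (p k)) (hM : ∀ k, p k ∈ M) : vn_projInf p ∈ M := by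
  rw [vn_mem_iff_commute]
  intro y hy
  exact vn_commute_projInf hp fun k => (vn_mem_iff_commute M _).1 (hM k) y hy

/-- A strong limit of projections is a projection. -/
theorem vn_isStarProjection_of_sotTendsto {ι : Type*} {l : Filter ι} [l.NeBot]
    {p : ι → H →L[ℂ] H} {t : H →L[ℂ] H} (h : SotTendsto l p t)
    (hp : ∀ᶠ i in l, IsStarProjection (p i)) : IsStarProjection t := by
  constructor
  · have h1 : SotTendsto l (fun i => p i * p i) (t * t) :=
      h.mul (C := 1) (hp.mono fun i hi => vn_proj_norm_le hi) h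
    exact h1.unique (h.congr' (hp.mono fun i hi => hi.isIdempotentElem.eq.symm))
  · exact h.wotTendsto.isSelfAdjoint (hp.mono fun i hi => hi.isSelfAdjoint)

/-- A monotone net of projections converges strongly to its supremum. -/
theorem vn_sotTendsto_projSup [Preorder κ] [IsDirected κ (· ≤ ·)] [Nonempty κ]
    {p : κ → H →L[ℂ] H} (hp : ∀ k, IsStarProjection (p k)) (hmono : Monotone p) :
    SotTendsto atTop p (vn_projSup p) := by
  obtain ⟨t, ht, hlim⟩ := vn_exists_isLUB_sot p hmono
    ⟨1, by rintro _ ⟨k, rfl⟩; exact vn_proj_le_one (hp k)⟩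
  have htp : IsStarProjection t :=
    vn_isStarProjection_of_sotTendsto hlim (Eventually.of_forall hp)
  have h1 : vn_projSup p ≤ t := (vn_projSup_le_iff hp htp).2 fun k => ht.1 ⟨k, rfl⟩
  have h2 : t ≤ vn_projSup p := ht.2 (by rintro _ ⟨k, rfl⟩; exact vn_le_projSup hp k)
  rwa [le_antisymm h1 h2]

/-- An antitone net of projections converges strongly to its infimum. -/
theorem vn_sotTendsto_projInf [Preorder κ] [IsDirected κ (· ≤ ·)] [Nonempty κ]
    {p : κ → H →L[ℂ] H} (hp : ∀ k, IsStarProjection (p k)) (hanti : Antitone p) :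
    SotTendsto atTop p (vn_projInf p) := by
  have h := vn_sotTendsto_projSup (p := fun k => 1 - p k) (fun k => (hp k).one_sub)
    (fun i j hij => sub_le_sub_left (hanti hij) 1)
  rw [← vn_one_sub_projInf hp] at h
  have := (SotTendsto.const (l := atTop) (1 : H →L[ℂ] H)).sub h
  simpa using this

/-- For pairwise orthogonal projections the finite partial sums converge strongly to the
supremum. -/
theorem vn_sotTendsto_sum_projSup {p : κ → H →L[ℂ] H} (hp : ∀ k, IsStarProjection (p k))
    (horth : ∀ k k', k ≠ k' → p k * p k' = 0) :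
    SotTendsto atTop (fun s : Finset κ => ∑ k ∈ s, p k) (vn_projSup p) := by
  have hP : ∀ s : Finset κ, IsStarProjection (∑ k ∈ s, p k) := fun s =>
    vn_isStarProjection_sum s p (fun k _ => hp k) (fun k _ k' _ h => horth k k' h)
  have h := vn_sotTendsto_projSup (p := fun s : Finset κ => ∑ k ∈ s, p k) hP
    (fun s t hst => Finset.sum_le_sum_of_subset_of_nonneg hst fun k _ _ => (hp k).nonneg)
  have e : vn_projSup (fun s : Finset κ => ∑ k ∈ s, p k) = vn_projSup p := by
    apply le_antisymm
    · rw [vn_projSup_le_iff hP (vn_projSup_isStarProjection p)]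
      intro s
      rw [(hP s).le_iff_mul_eq_right (vn_projSup_isStarProjection p), Finset.mul_sum]
      refine Finset.sum_congr rfl fun k _ => ?_
      exact ((hp k).le_iff_mul_eq_right (vn_projSup_isStarProjection p)).1 (vn_le_projSup hp k)
    · rw [vn_projSup_le_iff hp (vn_projSup_isStarProjection _)]
      intro k
      have := vn_le_projSup hP {k}
      simpa using this
  rwa [e] at h

/-- For two commuting projections: `p ∧ q = p q`, `p ∨ q = p + q - p q`. -/
theorem vn_projInf_pair {p q : H →L[ℂ] H} (hp : IsStarProjection p) (hq : IsStarProjection q)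
    (h : Commute p q) : vn_projInf (fun b : Bool => if b then p else q) = p * q := by
  have hb : ∀ b : Bool, IsStarProjection (if b then p else q) := by
    intro b; cases b <;> simpa
  have hpq : IsStarProjection (p * q) := hp.mul hq h
  apply le_antisymm
  · rw [vn_proj_le_iff (vn_projInf_isStarProjection _) hpq]
    intro ξ hξ
    have h1 := (vn_projInf_apply_eq_iff hb ξ).1 hξ
    have h2 : p ξ = ξ := by simpa using h1 true
    have h3 : q ξ = ξ := by simpa using h1 false
    rw [vn_mul_apply, h3, h2]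
  · rw [vn_le_projInf_iff hb hpq]
    intro b
    cases b
    · simp only [Bool.false_eq_true, if_false]
      rw [hpq.le_iff_mul_eq_left hq, mul_assoc, hq.isIdempotentElem.eq]
    · simp only [if_true]
      rw [hpq.le_iff_mul_eq_right hp, ← mul_assoc, hp.isIdempotentElem.eq]

theorem vn_projSup_pair {p q : H →L[ℂ] H} (hp : IsStarProjection p) (hq : IsStarProjection q)
    (h : Commute p q) : vn_projSup (fun b : Bool => if b then p else q) = p + q - p * q := by
  have hb : ∀ b : Bool, IsStarProjection (if b then p else q) := by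
    intro b; cases b <;> simpa
  have h1 := vn_one_sub_projSup hb
  have e : (fun b : Bool => 1 - (if b then p else q)) = fun b : Bool => if b then 1 - p else 1 - q := by
    funext b; cases b <;> simp
  rw [e, vn_projInf_pair hp.one_sub hq.one_sub
    ((Commute.one_right (1 - p)).sub_right ((Commute.one_left q).sub_left h))] at h1
  have h2 : vn_projSup (fun b : Bool => if b then p else q) = 1 - (1 - p) * (1 - q) := by
    rw [← h1, sub_sub_cancel]
  rw [h2]
  noncomm_ring

end Claimed.Agent.R302
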