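import Claimed.Agent.R302.VN.Spec

/-!
# R302 / VN toolkit, file 5: Douglas factorisation and polar decomposition

Owner: helper268.
-/

set_option autoImplicit false
set_option linter.unusedSectionVars false

open scoped InnerProductSpace ComplexOrder
open Filter Topology

namespace Claimed.Agent.R302

variable {H : Type*} [NormedAddCommGroup H] [InnerProductSpace ℂ H] [CompleteSpace H]

/-- **Douglas factorisation.** If `‖a ξ‖ ≤ C ‖b ξ‖` for all `ξ`, then `a = c b` for a unique operator `c`
with `c = c s(b)` (`s(b)` the range projection of `b`); moreover `‖c‖ ≤ C`. -/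
theorem vn_exists_douglas {a b : H →L[ℂ] H} {C : ℝ} (hC : 0 ≤ C) (h : ∀ ξ, ‖a ξ‖ ≤ C * ‖b ξ‖) :
    ∃ c : H →L[ℂ] H, a = c * b ∧ c * vn_rangeProj b = c ∧ ‖c‖ ≤ C := by
  set s := vn_rangeProj b with hs
  have hsp : IsStarProjection s := vn_rangeProj_isStarProjection b
  let e : (H × H) →ₗ[ℂ] H := (b : H →ₗ[ℂ] H).coprod ((1 - s : H →L[ℂ] H) : H →ₗ[ℂ] H)
  let f : (H × H) →ₗ[ℂ] H := (a : H →ₗ[ℂ] H) ∘ₗ LinearMap.fst ℂ H H
  have he : ∀ x : H × H, e x = b x.1 + (1 - s) x.2 := fun x => rfl
  have hf : ∀ x : H × H, f x = a x.1 := fun x => rfl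
  have hdense : DenseRange e := by
    have h1 : (LinearMap.range e).topologicalClosure = ⊤ := by
      rw [Submodule.topologicalClosure_eq_top_iff, Submodule.eq_bot_iff]
      intro ζ hζ
      rw [Submodule.mem_orthogonal] at hζ
      have h2 : s ζ = 0 := by
        rw [hs, vn_rangeProj, vn_projOn_apply_eq_zero_iff]
        intro η hη
        obtain ⟨ξ, rfl⟩ := vn_mem_range.1 hη
        exact hζ _ ⟨(ξ, 0), by simp [he]⟩
      have h3 : ⟪(1 - s) ζ, ζ⟫_ℂ = 0 := hζ _ ⟨(0, ζ), by simp [he]⟩
      have h4 : (1 - s) ζ = ζ := by simp [h2]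
      rw [h4] at h3
      exact inner_self_eq_zero.1 h3
    have h2 := (Submodule.dense_iff_topologicalClosure_eq_top).2 h1
    rwa [LinearMap.coe_range] at h2
  have hbound : ∀ x : H × H, ‖f x‖ ≤ C * ‖e x‖ := by
    intro x
    have h1 : s (e x) = b x.1 := by
      rw [he, map_add]
      have e1 : s (b x.1) = b x.1 := congrArg (fun y : H →L[ℂ] H => y x.1) (vn_rangeProj_mul_self b)
      have e2 : s ((1 - s) x.2) = 0 := by simp [vn_proj_apply_apply hsp]
      rw [e1, e2, add_zero]
    have h2 : ‖b x.1‖ ≤ ‖e x‖ := by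
      rw [← h1]
      calc ‖s (e x)‖ ≤ ‖s‖ * ‖e x‖ := s.le_opNorm _
        _ ≤ 1 * ‖e x‖ := by gcongr; exact vn_proj_norm_le hsp
        _ = ‖e x‖ := one_mul _
    rw [hf]
    exact (h x.1).trans (by gcongr)
  refine ⟨f.extendOfNorm e, ?_, ?_, LinearMap.opNorm_extendOfNorm_le hdense hC hbound⟩
  · ext ξ
    have := LinearMap.extendOfNorm_eq hdense ⟨C, hbound⟩ (ξ, 0)
    rw [he, hf] at this
    simpa using this.symm
  · have h1 : f.extendOfNorm e * (1 - s) = 0 := by
      ext η
      have := LinearMap.extendOfNorm_eq hdense ⟨C, hbound⟩ (0, η)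
      rw [he, hf] at this
      simpa using this
    rw [mul_sub, mul_one, sub_eq_zero] at h1
    exact h1.symm

theorem vn_douglas_unique {b c c' : H →L[ℂ] H} (h : c * b = c' * b)
    (hc : c * vn_rangeProj b = c) (hc' : c' * vn_rangeProj b = c') : c = c' := by
  rw [← hc, ← hc']
  exact vn_mul_rangeProj_eq_iff.2 h

/-- `⟪ξ, a* a ξ⟫ = ‖a ξ‖²`. -/
theorem vn_re_inner_star_mul_self (a : H →L[ℂ] H) (ξ : H) :
    (⟪ξ, (star a * a) ξ⟫_ℂ).re = ‖a ξ‖ ^ 2 := by
  rw [vn_mul_apply, vn_inner_star, inner_self_eq_norm_sq_to_K]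
  norm_cast

/-- Operator form of the hypothesis: `a* a ≤ C² b* b`. -/
theorem vn_exists_douglas' {a b : H →L[ℂ] H} {C : ℝ} (hC : 0 ≤ C)
    (h : star a * a ≤ ((C ^ 2 : ℝ) : ℂ) • (star b * b)) :
    ∃ c : H →L[ℂ] H, a = c * b ∧ c * vn_rangeProj b = c ∧ ‖c‖ ≤ C := by
  refine vn_exists_douglas hC fun ξ => ?_
  have h1 := vn_re_inner_le_of_le h ξ
  rw [vn_re_inner_star_mul_self, ContinuousLinearMap.smul_apply, inner_smul_right,
    Complex.re_ofReal_mul, vn_re_inner_star_mul_self, ← mul_pow] at h1
  exact (pow_le_pow_iff_left₀ (norm_nonneg _) (by positivity) (by norm_num)).1 h1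

/-- `u` is a partial isometry. -/
def vn_IsPartialIsometry (u : H →L[ℂ] H) : Prop := IsStarProjection (star u * u)

theorem vn_IsPartialIsometry.mul_star_mul {u : H →L[ℂ] H} (hu : vn_IsPartialIsometry u) :
    u * star u * u = u := by
  have hp : IsStarProjection (star u * u) := hu
  have h1 : star (u - u * (star u * u)) * (u - u * (star u * u)) = 0 := by
    have e : star (u - u * (star u * u)) * (u - u * (star u * u))
        = star u * u - (star u * u) * (star u * u) - (star u * u) * (star u * u)
          + (star u * u) * ((star u * u) * (star u * u)) := by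
      simp only [star_sub, star_mul, star_star]
      noncomm_ring
    rw [e, hp.isIdempotentElem.eq, hp.isIdempotentElem.eq]
    abel
  have h2 := (CStarRing.star_mul_self_eq_zero_iff _).1 h1
  rw [mul_assoc]
  exact (sub_eq_zero.1 h2).symm

theorem vn_IsPartialIsometry.adjoint {u : H →L[ℂ] H} (hu : vn_IsPartialIsometry u) :
    vn_IsPartialIsometry (star u) := by
  show IsStarProjection (star (star u) * star u)
  rw [star_star]
  constructor
  · show u * star u * (u * star u) = u * star u
    rw [← mul_assoc, hu.mul_star_mul]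
  · show star (u * star u) = u * star u
    simp

theorem vn_IsPartialIsometry.norm_le {u : H →L[ℂ] H} (hu : vn_IsPartialIsometry u) : ‖u‖ ≤ 1 := by
  have h1 : ‖u‖ * ‖u‖ ≤ 1 := by
    rw [← CStarRing.norm_star_mul_self]
    exact vn_proj_norm_le hu
  nlinarith [norm_nonneg u]

/-- Two projections with the same kernel are equal. -/
theorem vn_proj_eq_of_ker {p q : H →L[ℂ] H} (hp : IsStarProjection p) (hq : IsStarProjection q)
    (h : ∀ ξ, p ξ = 0 ↔ q ξ = 0) : p = q := by
  have key : ∀ {p q : H →L[ℂ] H}, IsStarProjection p → IsStarProjection q →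
      (∀ ξ, p ξ = 0 → q ξ = 0) → q ≤ p := by
    intro p q hp hq h
    have h1 : 1 - p ≤ 1 - q := by
      rw [vn_proj_le_iff hp.one_sub hq.one_sub]
      intro ξ hξ
      have h2 : p ξ = 0 := by
        have : ξ - p ξ = ξ := by simpa using hξ
        simpa using this
      simp [h ξ h2]
    exact (sub_le_sub_iff_left 1).1 h1
  exact le_antisymm (key hq hp fun ξ => (h ξ).2) (key hp hq fun ξ => (h ξ).1)

theorem vn_abs_star_eq_self (z : H →L[ℂ] H) : star (CFC.abs z) = CFC.abs z :=
  (CFC.abs_nonneg z).isSelfAdjoint.star_eq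

theorem vn_rangeProj_abs (z : H →L[ℂ] H) : vn_rangeProj (CFC.abs z) = vn_rangeProj (star z) := by
  refine vn_proj_eq_of_ker (vn_rangeProj_isStarProjection _) (vn_rangeProj_isStarProjection _) ?_
  intro ξ
  rw [← vn_apply_eq_zero_iff z ξ]
  have := vn_apply_eq_zero_iff (CFC.abs z) ξ
  rw [vn_abs_star_eq_self] at this
  rw [← this, ← norm_eq_zero, vn_norm_abs_apply, norm_eq_zero]

/-- **Polar decomposition**, existence. -/
theorem vn_exists_polar (z : H →L[ℂ] H) :
    ∃ u : H →L[ℂ] H, z = u * CFC.abs z ∧ star u * u = vn_rangeProj (star z) ∧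
      u * star u = vn_rangeProj z := by
  obtain ⟨u, hu1, hu2, -⟩ := vn_exists_douglas (a := z) (b := CFC.abs z) (C := 1) zero_le_one
    (fun ξ => by rw [vn_norm_abs_apply, one_mul])
  set m := CFC.abs z with hm
  set s := vn_rangeProj m with hs
  have hms : star m = m := vn_abs_star_eq_self z
  have hsp : IsStarProjection s := vn_rangeProj_isStarProjection m
  have hss : star s = s := hsp.isSelfAdjoint.star_eq
  have hmm : m * m = star z * z := CFC.abs_mul_abs z
  -- `u* u = s`
  have h1 : m * (star u * u - 1) * m = 0 := by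
    have : m * (star u * u - 1) * m = star (u * m) * (u * m) - m * m := by
      rw [star_mul, hms]; noncomm_ring
    rw [this, ← hu1, hmm, sub_self]
  have h2 : m * (star u * u - 1) * s = 0 := vn_mul_rangeProj_eq_zero_iff.2 h1
  have h3 : s * ((star u * u - 1) * s) = 0 := by
    have := (vn_rangeProj_star_mul_eq_zero_iff (y := (star u * u - 1) * s) (z := m)).2
      (by rw [← mul_assoc]; exact h2)
    rwa [hms] at this
  have h4 : star u * u = s := by
    have e1 : s * ((star u * u - 1) * s) = star (u * s) * (u * s) - s * s := by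
      rw [star_mul, hss]; noncomm_ring
    rw [e1, hu2, hsp.isIdempotentElem.eq, sub_eq_zero] at h3
    exact h3
  have hpi : vn_IsPartialIsometry u := by
    show IsStarProjection (star u * u)
    rw [h4]; exact hsp
  refine ⟨u, hu1, by rw [h4, hs, hm, vn_rangeProj_abs], ?_⟩
  have hq : IsStarProjection (u * star u) := by
    have := hpi.adjoint
    unfold vn_IsPartialIsometry at this
    rwa [star_star] at this
  apply le_antisymm
  · rw [hq.le_iff_mul_eq_right (vn_rangeProj_isStarProjection z)]
    have h5 : vn_rangeProj z * u = u := by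
      have e1 : (vn_rangeProj z * u) * m = u * m := by
        rw [mul_assoc, ← hu1, vn_rangeProj_mul_self]
      have e2 := vn_mul_rangeProj_eq_iff.2 e1
      rwa [mul_assoc, hu2] at e2
    rw [← mul_assoc, h5]
  · rw [vn_rangeProj_le_iff hq]
    conv_lhs => rw [hu1]
    rw [← mul_assoc, hpi.mul_star_mul, ← hu1]

/-- The partial isometry of the polar decomposition `z = u |z|`. -/
noncomputable def vn_polar (z : H →L[ℂ] H) : H →L[ℂ] H := (vn_exists_polar z).choose

theorem vn_polar_mul_abs (z : H →L[ℂ] H) : vn_polar z * CFC.abs z = z :=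
  (vn_exists_polar z).choose_spec.1.symm

theorem vn_star_polar_mul_polar (z : H →L[ℂ] H) :
    star (vn_polar z) * vn_polar z = vn_rangeProj (star z) :=
  (vn_exists_polar z).choose_spec.2.1

theorem vn_polar_mul_star_polar (z : H →L[ℂ] H) :
    vn_polar z * star (vn_polar z) = vn_rangeProj z :=
  (vn_exists_polar z).choose_spec.2.2

theorem vn_polar_isPartialIsometry (z : H →L[ℂ] H) : vn_IsPartialIsometry (vn_polar z) := by
  show IsStarProjection (star (vn_polar z) * vn_polar z)
  rw [vn_star_polar_mul_polar]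
  exact vn_rangeProj_isStarProjection _

/-- `u s(z*) = u`. -/
theorem vn_polar_mul_rangeProj (z : H →L[ℂ] H) : vn_polar z * vn_rangeProj (star z) = vn_polar z := by
  rw [← vn_star_polar_mul_polar, ← mul_assoc, (vn_polar_isPartialIsometry z).mul_star_mul]

/-- `s(z) u = u`. -/
theorem vn_rangeProj_mul_polar (z : H →L[ℂ] H) : vn_rangeProj z * vn_polar z = vn_polar z := by
  rw [← vn_polar_mul_star_polar, (vn_polar_isPartialIsometry z).mul_star_mul]

/-- `u* z = |z|`. -/
theorem vn_star_polar_mul (z : H →L[ℂ] H) : star (vn_polar z) * z = CFC.abs z := by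
  calc star (vn_polar z) * z = star (vn_polar z) * (vn_polar z * CFC.abs z) := by
        rw [vn_polar_mul_abs]
    _ = CFC.abs z := by
        rw [← mul_assoc, vn_star_polar_mul_polar, ← vn_rangeProj_abs, vn_rangeProj_mul_self]

theorem vn_abs_mul_rangeProj (z : H →L[ℂ] H) : CFC.abs z * vn_rangeProj (star z) = CFC.abs z := by
  have := vn_mul_rangeProj_star (CFC.abs z)
  rwa [vn_abs_star_eq_self, vn_rangeProj_abs] at this

/-- `|z*| = u |z| u*` and `z = |z*| u`. -/
theorem vn_abs_star_eq (z : H →L[ℂ] H) :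
    CFC.abs (star z) = vn_polar z * CFC.abs z * star (vn_polar z) := by
  refine CFC.sqrt_unique ?_ (star_right_conjugate_nonneg (CFC.abs_nonneg z) _)
  rw [star_star]
  calc vn_polar z * CFC.abs z * star (vn_polar z) * (vn_polar z * CFC.abs z * star (vn_polar z))
      = vn_polar z * CFC.abs z * (star (vn_polar z) * vn_polar z) * CFC.abs z * star (vn_polar z) := by
        simp only [mul_assoc]
    _ = vn_polar z * (CFC.abs z * vn_rangeProj (star z)) * CFC.abs z * star (vn_polar z) := by
        rw [vn_star_polar_mul_polar]; simp only [mul_assoc]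
    _ = (vn_polar z * CFC.abs z) * star (vn_polar z * CFC.abs z) := by
        rw [vn_abs_mul_rangeProj, star_mul, vn_abs_star_eq_self]; simp only [mul_assoc]
    _ = z * star z := by rw [vn_polar_mul_abs]

theorem vn_abs_star_mul_polar (z : H →L[ℂ] H) : CFC.abs (star z) * vn_polar z = z := by
  rw [vn_abs_star_eq, mul_assoc, vn_star_polar_mul_polar, mul_assoc, vn_abs_mul_rangeProj,
    vn_polar_mul_abs]

/-- **Intertwining**: if `a z = z b` and `a* z = z b*` then `a u = u b`. -/
theorem vn_polar_intertwine {a b z : H →L[ℂ] H} (h : a * z = z * b)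
    (h' : star a * z = z * star b) : a * vn_polar z = vn_polar z * b := by
  have h1 : Commute b (star z * z) := by
    show b * (star z * z) = star z * z * b
    have e : b * star z = star z * a := by
      have := congrArg star h'
      simpa using this.symm
    rw [← mul_assoc, e, mul_assoc, h, mul_assoc]
  have h2 : Commute b (CFC.abs z) := vn_commute_sqrt h1
  have h3 : Commute b (vn_rangeProj (star z)) := by
    rw [← vn_rangeProj_abs]
    exact vn_commute_rangeProj h2 (by rwa [vn_abs_star_eq_self])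
  have h4 : (a * vn_polar z) * CFC.abs z = (vn_polar z * b) * CFC.abs z := by
    rw [mul_assoc, vn_polar_mul_abs, mul_assoc, h2.eq, ← mul_assoc, vn_polar_mul_abs, h]
  have h5 := vn_mul_rangeProj_eq_iff.2 h4
  rw [vn_rangeProj_abs, mul_assoc, vn_polar_mul_rangeProj, mul_assoc, h3.eq, ← mul_assoc,
    vn_polar_mul_rangeProj] at h5
  exact h5

theorem vn_commute_polar {y z : H →L[ℂ] H} (h : Commute y z) (h' : Commute y (star z)) :
    Commute y (vn_polar z) :=
  vn_polar_intertwine h.eq (vn_commute_star_left h').eq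

theorem vn_polar_mem (M : VonNeumannAlgebra H) {z : H →L[ℂ] H} (hz : z ∈ M) : vn_polar z ∈ M := by
  rw [vn_mem_iff_commute]
  intro y hy
  exact vn_commute_polar ((vn_mem_iff_commute M z).1 hz y hy)
    ((vn_mem_iff_commute M _).1 (star_mem hz) y hy)

/-- Uniqueness of the polar decomposition. -/
theorem vn_polar_unique {z u : H →L[ℂ] H} (h : z = u * CFC.abs z)
    (hu : star u * u = vn_rangeProj (star z)) : u = vn_polar z := by
  have hpi : vn_IsPartialIsometry u := by
    show IsStarProjection (star u * u)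
    rw [hu]; exact vn_rangeProj_isStarProjection _
  refine vn_douglas_unique (b := CFC.abs z) (by rw [← h, vn_polar_mul_abs]) ?_ ?_
  · rw [vn_rangeProj_abs, ← hu, ← mul_assoc, hpi.mul_star_mul]
  · rw [vn_rangeProj_abs, vn_polar_mul_rangeProj]

end Claimed.Agent.R302
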