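import Claimed.Agent.R302.VN.Bicomm
import Claimed.Agent.R302.VN.Polar

/-!
# R302 / VN toolkit, file 10: maximal abelian subalgebras

Owner: helper268.  The hypothesis is the neutral form
`hA : ∀ y, y ∈ A ↔ y ∈ M ∧ ∀ a ∈ A, Commute y a` of `IsMasaIn M A`.
Main device: `vn_masaVN M A hA : VonNeumannAlgebra H` with `x ∈ vn_masaVN M A hA ↔ x ∈ A`; every
membership lemma `vn_*_mem` of the toolkit applies to it.
-/

set_option autoImplicit false
set_option linter.unusedSectionVars false

open scoped InnerProductSpace ComplexOrder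
open Filter Topology

namespace Claimed.Agent.R302

variable {H : Type*} [NormedAddCommGroup H] [InnerProductSpace ℂ H] [CompleteSpace H]
variable (M : VonNeumannAlgebra H) (A : StarSubalgebra ℂ (H →L[ℂ] H))
variable (hA : ∀ y : H →L[ℂ] H, y ∈ A ↔ (y ∈ M ∧ ∀ a ∈ A, Commute y a))

/-- A masa is a von Neumann algebra. -/
noncomputable def vn_masaVN (M : VonNeumannAlgebra H) (A : StarSubalgebra ℂ (H →L[ℂ] H))
    (hA : ∀ y : H →L[ℂ] H, y ∈ A ↔ (y ∈ M ∧ ∀ a ∈ A, Commute y a)) : VonNeumannAlgebra H where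
  toStarSubalgebra := A
  centralizer_centralizer' := by
    apply Set.Subset.antisymm
    · intro y hy
      have hy' : ∀ c ∈ Set.centralizer (A : Set (H →L[ℂ] H)), c * y = y * c := hy
      refine (hA y).2 ⟨?_, fun a ha => ?_⟩
      · rw [← VonNeumannAlgebra.commutant_commutant M, VonNeumannAlgebra.mem_commutant_iff]
        intro c hc
        refine hy' c fun a ha => ?_
        exact (VonNeumannAlgebra.mem_commutant_iff.1 hc a ((hA a).1 ha).1)
      · exact (hy' a fun b hb => (((hA b).1 hb).2 a ha)).symm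
    · exact Set.subset_centralizer_centralizer

theorem vn_mem_masaVN {x : H →L[ℂ] H} : x ∈ vn_masaVN M A hA ↔ x ∈ A := Iff.rfl

include hA

theorem vn_masa_le {a : H →L[ℂ] H} (ha : a ∈ A) : a ∈ M := ((hA a).1 ha).1

theorem vn_masa_commute {a b : H →L[ℂ] H} (ha : a ∈ A) (hb : b ∈ A) : Commute a b :=
  ((hA a).1 ha).2 b hb

/-- `A ⊆ A'`, `M' ⊆ A'`. -/
theorem vn_masa_le_commutant {a : H →L[ℂ] H} (ha : a ∈ A) : a ∈ (vn_masaVN M A hA).commutant := by
  rw [VonNeumannAlgebra.mem_commutant_iff]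
  intro g hg
  exact (vn_masa_commute M A hA hg ha).eq

theorem vn_commutant_le_masa_commutant {y : H →L[ℂ] H} (hy : y ∈ M.commutant) :
    y ∈ (vn_masaVN M A hA).commutant := by
  rw [VonNeumannAlgebra.mem_commutant_iff] at hy ⊢
  intro g hg
  exact hy g (vn_masa_le M A hA hg)

/-- The centre of `M` is contained in `A`. -/
theorem vn_masa_center_mem {y : H →L[ℂ] H} (hy : y ∈ M) (hy' : y ∈ M.commutant) : y ∈ A := by
  refine (hA y).2 ⟨hy, fun a ha => ?_⟩
  exact (VonNeumannAlgebra.mem_commutant_iff.1 hy' a (vn_masa_le M A hA ha)).symm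

/-- A masa is WOT closed. -/
theorem vn_masa_wot_mem {ι : Type*} {l : Filter ι} [l.NeBot] {z : ι → H →L[ℂ] H}
    {z₀ : H →L[ℂ] H} (hz : WotTendsto l z z₀) (h : ∀ᶠ i in l, z i ∈ A) : z₀ ∈ A :=
  hz.mem (vn_masaVN M A hA) h

/-- Corner of a masa: an element of `e M e` commuting with `A e` belongs to `A`. -/
theorem vn_masa_corner_mem {e y : H →L[ℂ] H} (he : e ∈ A) (hy : y ∈ M) (hey : e * y = y)
    (hye : y * e = y) (h : ∀ a ∈ A, Commute y (a * e)) : y ∈ A := by
  refine (hA y).2 ⟨hy, fun a ha => ?_⟩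
  show y * a = a * y
  have hae : a * e = e * a := (vn_masa_commute M A hA ha he).eq
  calc y * a = y * (e * a) := by rw [← mul_assoc, hye]
    _ = y * (a * e) := by rw [hae]
    _ = a * e * y := (h a ha).eq
    _ = a * y := by rw [mul_assoc, hey]

/-- Selfadjoint elements of `A` are norm limits of real combinations of a finite partition of `1` by
projections of `A`. -/
theorem vn_masa_exists_finite_spectrum_approx {a : H →L[ℂ] H} (ha : a ∈ A) (has : IsSelfAdjoint a)
    {ε : ℝ} (hε : 0 < ε) :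
    ∃ (n : ℕ) (e : Fin n → H →L[ℂ] H) (c : Fin n → ℝ),
      (∀ j, e j ∈ A ∧ IsStarProjection (e j)) ∧ (∀ j k, j ≠ k → e j * e k = 0) ∧ ∑ j, e j = 1 ∧
      (∀ j, |c j| ≤ ‖a‖) ∧ ‖a - ∑ j, (c j : ℂ) • e j‖ ≤ ε := by
  obtain ⟨n, e, c, h1, h2, h3, h4, h5, h6⟩ := vn_exists_finite_spectrum_approx has hε
  refine ⟨n, e, c, fun j => ⟨?_, h1 j⟩, h2, h3, h5, h6⟩
  rw [← vn_mem_masaVN M A hA, vn_mem_iff_commute]
  intro y hy
  exact h4 j y ((vn_mem_iff_commute (vn_masaVN M A hA) a).1 ha y hy)

/-- If `y ∈ M` commutes with every projection of `A`, then `y ∈ A`. -/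
theorem vn_masa_mem_of_proj {y : H →L[ℂ] H} (hy : y ∈ M)
    (h : ∀ e ∈ A, IsStarProjection e → Commute y e) : y ∈ A := by
  have hsa : ∀ a ∈ A, IsSelfAdjoint a → Commute y a := by
    intro a ha has
    have hnorm : ∀ ε : ℝ, 0 < ε → ‖y * a - a * y‖ ≤ 2 * ‖y‖ * ε := by
      intro ε hε
      obtain ⟨n, e, c, h1, -, -, -, h6⟩ := vn_masa_exists_finite_spectrum_approx M A hA ha has hε
      set b := ∑ j, (c j : ℂ) • e j with hb
      have hyb : y * b = b * y := by
        have : Commute y b := by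
          rw [hb]
          exact Commute.sum_right _ _ _ fun j _ => (h (e j) (h1 j).1 (h1 j).2).smul_right _
        exact this.eq
      have e1 : y * a - a * y = y * (a - b) - (a - b) * y := by
        rw [mul_sub, sub_mul, hyb]; abel
      rw [e1]
      calc ‖y * (a - b) - (a - b) * y‖ ≤ ‖y * (a - b)‖ + ‖(a - b) * y‖ := norm_sub_le _ _
        _ ≤ ‖y‖ * ‖a - b‖ + ‖a - b‖ * ‖y‖ := add_le_add (norm_mul_le _ _) (norm_mul_le _ _)
        _ ≤ ‖y‖ * ε + ε * ‖y‖ := by gcongr
        _ = 2 * ‖y‖ * ε := by ring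
    have h0 : ‖y * a - a * y‖ ≤ 0 := by
      refine le_of_forall_pos_le_add fun δ hδ => ?_
      have := hnorm (δ / (2 * ‖y‖ + 1)) (by positivity)
      refine this.trans ?_
      rw [zero_add, mul_div_assoc', div_le_iff₀ (by positivity)]
      nlinarith [norm_nonneg y]
    exact sub_eq_zero.1 (norm_le_zero_iff.1 h0)
  refine (hA y).2 ⟨hy, fun a ha => ?_⟩
  have h1 : Commute y (a + star a) :=
    hsa _ (add_mem ha (star_mem ha)) (by
      show star (a + star a) = a + star a
      rw [star_add, star_star, add_comm])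
  have h2 : Commute y (Complex.I • (a - star a)) :=
    hsa _ (A.smul_mem (sub_mem ha (star_mem ha)) _) (by
      show star (Complex.I • (a - star a)) = Complex.I • (a - star a)
      rw [star_smul, star_sub, star_star]
      simp only [Complex.star_def, Complex.conj_I, neg_smul, smul_sub]
      abel)
  have h3 : a = (1 / 2 : ℂ) • ((a + star a) + (-Complex.I) • (Complex.I • (a - star a))) := by
    rw [smul_smul]
    simp only [neg_mul, Complex.I_mul_I, neg_neg, one_smul]
    rw [add_add_sub_cancel, ← two_smul ℂ a, smul_smul]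
    norm_num
  rw [h3]
  exact (h1.add_right (h2.smul_right _)).smul_right _

/-- If `y ∈ M` satisfies `u y u = y` for every selfadjoint unitary `u ∈ A`, then `y ∈ A`. -/
theorem vn_masa_mem_of_symmetries {y : H →L[ℂ] H} (hy : y ∈ M)
    (h : ∀ u ∈ A, IsSelfAdjoint u → u * u = 1 → u * y * u = y) : y ∈ A := by
  refine vn_masa_mem_of_proj M A hA hy fun e he hep => ?_
  have hee : e * e = e := hep.isIdempotentElem.eq
  set u : H →L[ℂ] H := 1 - (2 : ℂ) • e with hu
  have huA : u ∈ A := sub_mem (one_mem _) (A.smul_mem he _)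
  have hus : IsSelfAdjoint u := by
    show star u = u
    rw [hu, star_sub, star_one, star_smul, hep.isSelfAdjoint.star_eq]
    simp
  have huu : u * u = 1 := by
    rw [hu]
    simp only [sub_mul, mul_sub, one_mul, mul_one, smul_mul_assoc, mul_smul_comm, hee]
    module
  have h1 := h u huA hus huu
  have h2 : u * y = y * u := by
    calc u * y = u * y * (u * u) := by rw [huu, mul_one]
      _ = (u * y * u) * u := by simp only [mul_assoc]
      _ = y * u := by rw [h1]
  rw [hu, sub_mul, mul_sub, one_mul, mul_one, smul_mul_assoc, mul_smul_comm] at h2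
  have h3 : (2 : ℂ) • (e * y) = (2 : ℂ) • (y * e) := by
    have := sub_right_injective h2
    exact this
  exact (smul_right_injective _ (two_ne_zero' ℂ) h3).symm

end Claimed.Agent.R302
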