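import Mathlib

/-!
# R302 / VN toolkit, file 1: weak and strong operator convergence along filters

Owner: helper268.  Prefix `vn_` (lemmas about `WotTendsto` / `SotTendsto` live in their namespaces).

Operators are plain `z : H →L[ℂ] H`.  `WotTendsto l z z₀`: `⟪η, z i ξ⟫ → ⟪η, z₀ ξ⟫` along `l` for all `ξ η`.
`SotTendsto l z z₀`: `z i ξ → z₀ ξ` along `l` for all `ξ`.
-/

set_option autoImplicit false
set_option linter.unusedSectionVars false

open scoped InnerProductSpace ComplexOrder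
open Filter Topology

namespace Claimed.Agent.R302

variable {H : Type*} [NormedAddCommGroup H] [InnerProductSpace ℂ H] [CompleteSpace H]
variable {ι : Type*} {l : Filter ι} {z w : ι → H →L[ℂ] H} {z₀ w₀ : H →L[ℂ] H}

/-- Convergence in the weak operator topology along a filter. -/
def WotTendsto (l : Filter ι) (z : ι → H →L[ℂ] H) (z₀ : H →L[ℂ] H) : Prop :=
  ∀ ξ η : H, Tendsto (fun i => ⟪η, z i ξ⟫_ℂ) l (𝓝 ⟪η, z₀ ξ⟫_ℂ)

/-- Convergence in the strong operator topology along a filter. -/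
def SotTendsto (l : Filter ι) (z : ι → H →L[ℂ] H) (z₀ : H →L[ℂ] H) : Prop :=
  ∀ ξ : H, Tendsto (fun i => z i ξ) l (𝓝 (z₀ ξ))

/-! ### Generalities on operators -/

/-- Two operators with the same matrix coefficients are equal. -/
theorem vn_ext_inner {a b : H →L[ℂ] H} (h : ∀ ξ η : H, ⟪η, a ξ⟫_ℂ = ⟪η, b ξ⟫_ℂ) : a = b := by
  ext ξ
  exact ext_inner_left ℂ (fun η => h ξ η)

/-- Two operators with the same quadratic form are equal (complex polarisation). -/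
theorem vn_ext_inner_self {a b : H →L[ℂ] H} (h : ∀ ξ : H, ⟪ξ, a ξ⟫_ℂ = ⟪ξ, b ξ⟫_ℂ) : a = b := by
  have h1 : (a : H →ₗ[ℂ] H) = (b : H →ₗ[ℂ] H) := by
    rw [← ext_inner_map]
    intro x
    have := congrArg (starRingEnd ℂ) (h x)
    simpa [inner_conj_symm] using this
  exact ContinuousLinearMap.coe_inj.1 h1

theorem vn_norm_le_of_inner {a : H →L[ℂ] H} {C : ℝ} (hC : 0 ≤ C)
    (h : ∀ ξ η : H, ‖⟪η, a ξ⟫_ℂ‖ ≤ C * ‖ξ‖ * ‖η‖) : ‖a‖ ≤ C := by
  refine ContinuousLinearMap.opNorm_le_bound _ hC fun ξ => ?_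
  have h1 := h ξ (a ξ)
  rw [inner_self_eq_norm_sq_to_K] at h1
  have h2 : ‖a ξ‖ * ‖a ξ‖ ≤ (C * ‖ξ‖) * ‖a ξ‖ := by
    have : ‖((‖a ξ‖ : ℂ)) ^ 2‖ = ‖a ξ‖ * ‖a ξ‖ := by
      rw [norm_pow, Complex.norm_real, norm_norm, sq]
    simpa [this] using h1
  by_cases h0 : ‖a ξ‖ = 0
  · rw [h0]; positivity
  · exact le_of_mul_le_mul_right h2 (lt_of_le_of_ne (norm_nonneg _) (Ne.symm h0))

theorem vn_nonneg_iff {a : H →L[ℂ] H} :
    0 ≤ a ↔ ∀ ξ : H, 0 ≤ ⟪ξ, a ξ⟫_ℂ := by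
  rw [ContinuousLinearMap.nonneg_iff_isPositive]
  constructor
  · intro h ξ
    exact h.inner_nonneg_right ξ
  · intro h
    rw [ContinuousLinearMap.isPositive_iff_complex]
    intro x
    have h1 := h x
    rw [Complex.le_def] at h1
    have hre : (⟪a x, x⟫_ℂ).re = (⟪x, a x⟫_ℂ).re := inner_re_symm (𝕜 := ℂ) _ _
    have him : (⟪a x, x⟫_ℂ).im = -(⟪x, a x⟫_ℂ).im := inner_im_symm (𝕜 := ℂ) _ _
    constructor
    · apply Complex.ext
      · simp
      · rw [him, ← h1.2]; simp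
    · show 0 ≤ (⟪a x, x⟫_ℂ).re
      rw [hre]
      simpa using h1.1

/-- `a ≤ b` in the Loewner order iff `b - a` is selfadjoint with the pointwise inequality. -/
theorem vn_le_iff {a b : H →L[ℂ] H} (ha : IsSelfAdjoint a) (hb : IsSelfAdjoint b) :
    a ≤ b ↔ ∀ ξ : H, (⟪ξ, a ξ⟫_ℂ).re ≤ (⟪ξ, b ξ⟫_ℂ).re := by
  rw [ContinuousLinearMap.le_def, ContinuousLinearMap.isPositive_def']
  constructor
  · rintro ⟨-, h⟩ ξ
    have h1 := h ξ
    rw [ContinuousLinearMap.reApplyInnerSelf_apply] at h1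
    have h2 : RCLike.re ⟪(b - a) ξ, ξ⟫_ℂ = (⟪ξ, b ξ⟫_ℂ).re - (⟪ξ, a ξ⟫_ℂ).re := by
      rw [inner_re_symm]
      simp [inner_sub_right]
    rw [h2] at h1
    linarith
  · intro h
    refine ⟨hb.sub ha, fun ξ => ?_⟩
    rw [ContinuousLinearMap.reApplyInnerSelf_apply]
    have h2 : RCLike.re ⟪(b - a) ξ, ξ⟫_ℂ = (⟪ξ, b ξ⟫_ℂ).re - (⟪ξ, a ξ⟫_ℂ).re := by
      rw [inner_re_symm]
      simp [inner_sub_right]
    rw [h2]
    linarith [h ξ]

/-- For `0 ≤ a`: `‖a ξ‖² ≤ ‖a‖ ⟪ξ, a ξ⟫`. -/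
theorem vn_norm_sq_apply_le {a : H →L[ℂ] H} (ha : 0 ≤ a) (ξ : H) :
    ‖a ξ‖ ^ 2 ≤ ‖a‖ * (⟪ξ, a ξ⟫_ℂ).re := by
  set b := CFC.sqrt a with hb
  have hbb : b * b = a := CFC.sqrt_mul_sqrt_self a ha
  have hbs : IsSelfAdjoint b := (CFC.sqrt_nonneg a).isSelfAdjoint
  have hn : ‖a‖ = ‖b‖ ^ 2 := by rw [← hbb, hbs.norm_mul_self]
  have h1 : (⟪ξ, a ξ⟫_ℂ).re = ‖b ξ‖ ^ 2 := by
    rw [← hbb, ContinuousLinearMap.mul_apply]
    have : ⟪ξ, b (b ξ)⟫_ℂ = ⟪b ξ, b ξ⟫_ℂ := by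
      rw [← ContinuousLinearMap.adjoint_inner_left, ← ContinuousLinearMap.star_eq_adjoint, hbs.star_eq]
    rw [this, inner_self_eq_norm_sq_to_K]
    norm_cast
  rw [h1, hn, ← mul_pow]
  have h2 : ‖a ξ‖ ≤ ‖b‖ * ‖b ξ‖ := by
    rw [← hbb, ContinuousLinearMap.mul_apply]
    exact b.le_opNorm _
  gcongr

/-- A bounded sesquilinear form (conjugate linear in `η`, linear in `ξ`) is given by an operator. -/
theorem vn_exists_of_form (B : H → H → ℂ) (C : ℝ)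
    (hadd₁ : ∀ ξ ξ' η, B (ξ + ξ') η = B ξ η + B ξ' η) (hsmul₁ : ∀ (c : ℂ) ξ η, B (c • ξ) η = c * B ξ η)
    (hadd₂ : ∀ ξ η η', B ξ (η + η') = B ξ η + B ξ η')
    (hsmul₂ : ∀ (c : ℂ) ξ η, B ξ (c • η) = (starRingEnd ℂ) c * B ξ η)
    (hbd : ∀ ξ η, ‖B ξ η‖ ≤ C * ‖ξ‖ * ‖η‖) :
    ∃ a : H →L[ℂ] H, ∀ ξ η, ⟪η, a ξ⟫_ℂ = B ξ η := by
  let B₀ : H →ₛₗ[starRingEnd ℂ] H →ₗ[ℂ] ℂ :=
    LinearMap.mk₂'ₛₗ (starRingEnd ℂ) (RingHom.id ℂ) (fun η ξ => B ξ η)
      (fun η η' ξ => hadd₂ ξ η η') (fun c η ξ => hsmul₂ c ξ η)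
      (fun η ξ ξ' => hadd₁ ξ ξ' η) (fun c η ξ => hsmul₁ c ξ η)
  let B₁ : H →L⋆[ℂ] H →L[ℂ] ℂ := B₀.mkContinuous₂ C (fun η ξ => by
    have := hbd ξ η
    calc ‖B₀ η ξ‖ = ‖B ξ η‖ := rfl
      _ ≤ C * ‖ξ‖ * ‖η‖ := this
      _ = C * ‖η‖ * ‖ξ‖ := by ring)
  refine ⟨ContinuousLinearMap.adjoint (InnerProductSpace.continuousLinearMapOfBilin B₁), fun ξ η => ?_⟩
  rw [ContinuousLinearMap.adjoint_inner_right, InnerProductSpace.continuousLinearMapOfBilin_apply]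
  rfl

/-- Membership in a von Neumann algebra = commutation with the commutant. -/
theorem vn_mem_iff_commute (M : VonNeumannAlgebra H) (x : H →L[ℂ] H) :
    x ∈ M ↔ ∀ y ∈ M.commutant, Commute y x := by
  conv_lhs => rw [← VonNeumannAlgebra.commutant_commutant M]
  rw [VonNeumannAlgebra.mem_commutant_iff]
  rfl

/-- Equi-Lipschitz families converging on a dense set converge everywhere. -/
theorem vn_tendsto_of_dense_aux {E F : Type*} [NormedAddCommGroup E] [NormedAddCommGroup F]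
    (g : ι → E → F) (g₀ : E → F) (K K' : ℝ)
    (hK : ∀ᶠ i in l, ∀ x y, ‖g i x - g i y‖ ≤ K * ‖x - y‖)
    (hK' : ∀ x y, ‖g₀ x - g₀ y‖ ≤ K' * ‖x - y‖) {D : Set E} (hD : Dense D)
    (h : ∀ x ∈ D, Tendsto (fun i => g i x) l (𝓝 (g₀ x))) (x : E) :
    Tendsto (fun i => g i x) l (𝓝 (g₀ x)) := by
  rw [Metric.tendsto_nhds]
  intro ε hε
  set L : ℝ := |K| + |K'| + 1 with hL
  have hLpos : 0 < L := by positivity
  obtain ⟨x', hx', hx'D⟩ := Metric.dense_iff.1 hD x (ε / (3 * L)) (by positivity)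
  have hx'' : ‖x - x'‖ < ε / (3 * L) := by
    rw [Metric.mem_ball, dist_eq_norm] at hx'
    rwa [norm_sub_rev]
  have h1 := (Metric.tendsto_nhds.1 (h x' hx'D)) (ε / 3) (by positivity)
  filter_upwards [h1, hK] with i hi hKi
  rw [dist_eq_norm] at hi ⊢
  have e1 : ‖g i x - g i x'‖ ≤ L * ‖x - x'‖ := (hKi x x').trans (by
    gcongr
    have := le_abs_self K
    have := abs_nonneg K'
    linarith)
  have e2 : ‖g₀ x' - g₀ x‖ ≤ L * ‖x - x'‖ := by
    rw [norm_sub_rev]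
    exact (hK' x x').trans (by
      gcongr
      have := le_abs_self K'
      have := abs_nonneg K
      linarith)
  have e3 : L * ‖x - x'‖ < ε / 3 := by
    have := mul_lt_mul_of_pos_left hx'' hLpos
    have e : L * (ε / (3 * L)) = ε / 3 := by field_simp
    linarith
  calc ‖g i x - g₀ x‖ = ‖(g i x - g i x') + (g i x' - g₀ x') + (g₀ x' - g₀ x)‖ := by
        congr 1; abel
    _ ≤ ‖g i x - g i x'‖ + ‖g i x' - g₀ x'‖ + ‖g₀ x' - g₀ x‖ := norm_add₃_le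
    _ < ε := by linarith

/-! ### WOT convergence -/

namespace WotTendsto

theorem const (a : H →L[ℂ] H) : WotTendsto l (fun _ => a) a := fun _ _ => tendsto_const_nhds

theorem add (hz : WotTendsto l z z₀) (hw : WotTendsto l w w₀) :
    WotTendsto l (fun i => z i + w i) (z₀ + w₀) := by
  intro ξ η
  simpa [inner_add_right] using (hz ξ η).add (hw ξ η)

theorem neg (hz : WotTendsto l z z₀) : WotTendsto l (fun i => - z i) (- z₀) := by
  intro ξ η
  simpa [inner_neg_right] using (hz ξ η).neg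

theorem sub (hz : WotTendsto l z z₀) (hw : WotTendsto l w w₀) :
    WotTendsto l (fun i => z i - w i) (z₀ - w₀) := by
  intro ξ η
  simpa [inner_sub_right] using (hz ξ η).sub (hw ξ η)

theorem const_smul (hz : WotTendsto l z z₀) (c : ℂ) :
    WotTendsto l (fun i => c • z i) (c • z₀) := by
  intro ξ η
  simpa [inner_smul_right] using (hz ξ η).const_mul c

theorem sum {κ : Type*} (s : Finset κ) {z : κ → ι → H →L[ℂ] H} {z₀ : κ → H →L[ℂ] H}
    (h : ∀ k ∈ s, WotTendsto l (z k) (z₀ k)) :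
    WotTendsto l (fun i => ∑ k ∈ s, z k i) (∑ k ∈ s, z₀ k) := by
  intro ξ η
  simpa [inner_sum, ContinuousLinearMap.sum_apply] using tendsto_finsetSum s (fun k hk => h k hk ξ η)

theorem star (hz : WotTendsto l z z₀) : WotTendsto l (fun i => star (z i)) (star z₀) := by
  intro ξ η
  have h1 := (Complex.continuous_conj.tendsto _).comp (hz η ξ)
  simpa [Function.comp_def, ContinuousLinearMap.star_eq_adjoint,
    ContinuousLinearMap.adjoint_inner_right, inner_conj_symm] using h1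

theorem mul_left (hz : WotTendsto l z z₀) (a : H →L[ℂ] H) :
    WotTendsto l (fun i => a * z i) (a * z₀) := by
  intro ξ η
  simpa [ContinuousLinearMap.adjoint_inner_left] using hz ξ (ContinuousLinearMap.adjoint a η)

theorem mul_right (hz : WotTendsto l z z₀) (a : H →L[ℂ] H) :
    WotTendsto l (fun i => z i * a) (z₀ * a) := by
  intro ξ η
  simpa using hz (a ξ) η

theorem congr' (hz : WotTendsto l z z₀) (h : z =ᶠ[l] w) : WotTendsto l w z₀ := by
  intro ξ η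
  refine (hz ξ η).congr' ?_
  filter_upwards [h] with i hi
  rw [hi]

theorem mono_left {l' : Filter ι} (hz : WotTendsto l z z₀) (h : l' ≤ l) : WotTendsto l' z z₀ :=
  fun ξ η => (hz ξ η).mono_left h

theorem comp {κ : Type*} {l' : Filter κ} {f : κ → ι} (hz : WotTendsto l z z₀)
    (hf : Tendsto f l' l) : WotTendsto l' (fun k => z (f k)) z₀ :=
  fun ξ η => (hz ξ η).comp hf

theorem unique [l.NeBot] (h₁ : WotTendsto l z z₀) (h₂ : WotTendsto l z w₀) : z₀ = w₀ :=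
  vn_ext_inner fun ξ η => tendsto_nhds_unique (h₁ ξ η) (h₂ ξ η)

/-- Commutants are WOT closed. -/
theorem commute [l.NeBot] (hz : WotTendsto l z z₀) {y : H →L[ℂ] H}
    (hy : ∀ᶠ i in l, Commute y (z i)) : Commute y z₀ := by
  refine (hz.mul_left y).unique ((hz.mul_right y).congr' ?_)
  filter_upwards [hy] with i hi
  exact hi.eq.symm

theorem mem_centralizer [l.NeBot] (hz : WotTendsto l z z₀) {S : Set (H →L[ℂ] H)}
    (hS : ∀ᶠ i in l, z i ∈ Set.centralizer S) : z₀ ∈ Set.centralizer S := by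
  intro s hs
  refine (hz.commute (y := s) ?_).eq
  filter_upwards [hS] with i hi
  exact hi s hs

/-- Von Neumann algebras are WOT closed. -/
theorem mem [l.NeBot] (hz : WotTendsto l z z₀) (M : VonNeumannAlgebra H)
    (hM : ∀ᶠ i in l, z i ∈ M) : z₀ ∈ M := by
  rw [vn_mem_iff_commute]
  intro y hy
  refine hz.commute ?_
  filter_upwards [hM] with i hi
  exact (vn_mem_iff_commute M _).1 hi y hy

theorem norm_le [l.NeBot] (hz : WotTendsto l z z₀) {C : ℝ} (hC : ∀ᶠ i in l, ‖z i‖ ≤ C) :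
    ‖z₀‖ ≤ C := by
  obtain ⟨i, hi⟩ := hC.exists
  have hC0 : 0 ≤ C := (norm_nonneg _).trans hi
  refine vn_norm_le_of_inner hC0 fun ξ η => ?_
  refine le_of_tendsto (hz ξ η).norm ?_
  filter_upwards [hC] with i hi
  calc ‖⟪η, z i ξ⟫_ℂ‖ ≤ ‖η‖ * ‖z i ξ‖ := norm_inner_le_norm _ _
    _ ≤ ‖η‖ * (C * ‖ξ‖) := by
        gcongr
        exact ((z i).le_opNorm ξ).trans (by gcongr)
    _ = C * ‖ξ‖ * ‖η‖ := by ring

theorem isSelfAdjoint [l.NeBot] (hz : WotTendsto l z z₀) (h : ∀ᶠ i in l, IsSelfAdjoint (z i)) :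
    IsSelfAdjoint z₀ := by
  refine hz.star.unique (hz.congr' ?_)
  filter_upwards [h] with i hi
  exact hi.star_eq.symm

theorem nonneg [l.NeBot] (hz : WotTendsto l z z₀) (h : ∀ᶠ i in l, 0 ≤ z i) : 0 ≤ z₀ := by
  rw [vn_nonneg_iff]
  intro ξ
  refine ge_of_tendsto (hz ξ ξ) ?_
  filter_upwards [h] with i hi
  exact vn_nonneg_iff.1 hi ξ

theorem le [l.NeBot] (hz : WotTendsto l z z₀) (hw : WotTendsto l w w₀)
    (h : ∀ᶠ i in l, z i ≤ w i) : z₀ ≤ w₀ := by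
  rw [← sub_nonneg]
  refine (hw.sub hz).nonneg ?_
  filter_upwards [h] with i hi
  exact sub_nonneg.2 hi

theorem le_const [l.NeBot] (hz : WotTendsto l z z₀) {c : H →L[ℂ] H} (h : ∀ᶠ i in l, z i ≤ c) :
    z₀ ≤ c :=
  hz.le (const c) h

theorem const_le [l.NeBot] (hz : WotTendsto l z z₀) {c : H →L[ℂ] H} (h : ∀ᶠ i in l, c ≤ z i) :
    c ≤ z₀ :=
  (const c).le hz h

end WotTendsto

/-- A bounded family which converges weakly on a dense set of pairs of vectors converges WOT. -/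
theorem vn_wotTendsto_of_dense {C : ℝ} (hb : ∀ᶠ i in l, ‖z i‖ ≤ C) {D : Set H} (hD : Dense D)
    (h : ∀ ξ ∈ D, ∀ η ∈ D, Tendsto (fun i => ⟪η, z i ξ⟫_ℂ) l (𝓝 ⟪η, z₀ ξ⟫_ℂ)) :
    WotTendsto l z z₀ := by
  have key : ∀ (a : H →L[ℂ] H) (K : ℝ), ‖a‖ ≤ K → ∀ ξ η : H, ‖⟪η, a ξ⟫_ℂ‖ ≤ K * ‖ξ‖ * ‖η‖ := by
    intro a K hK ξ η
    calc ‖⟪η, a ξ⟫_ℂ‖ ≤ ‖η‖ * ‖a ξ‖ := norm_inner_le_norm _ _
      _ ≤ ‖η‖ * (K * ‖ξ‖) := by
          gcongr
          exact (a.le_opNorm ξ).trans (by gcongr)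
      _ = K * ‖ξ‖ * ‖η‖ := by ring
  have step1 : ∀ η ∈ D, ∀ ξ : H, Tendsto (fun i => ⟪η, z i ξ⟫_ℂ) l (𝓝 ⟪η, z₀ ξ⟫_ℂ) := by
    intro η hη
    refine vn_tendsto_of_dense_aux (fun i ξ => ⟪η, z i ξ⟫_ℂ) (fun ξ => ⟪η, z₀ ξ⟫_ℂ)
      (C * ‖η‖) (‖z₀‖ * ‖η‖) ?_ ?_ hD (fun ξ hξ => h ξ hξ η hη)
    · filter_upwards [hb] with i hi x y
      rw [← inner_sub_right, ← map_sub]
      exact (key _ _ hi _ _).trans (le_of_eq (by ring))
    · intro x y
      rw [← inner_sub_right, ← map_sub]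
      exact (key _ _ le_rfl _ _).trans (le_of_eq (by ring))
  intro ξ
  refine vn_tendsto_of_dense_aux (fun i η => ⟪η, z i ξ⟫_ℂ) (fun η => ⟪η, z₀ ξ⟫_ℂ)
      (C * ‖ξ‖) (‖z₀‖ * ‖ξ‖) ?_ ?_ hD (fun η hη => step1 η hη ξ)
  · filter_upwards [hb] with i hi x y
    rw [← inner_sub_left]
    exact key _ _ hi _ _
  · intro x y
    rw [← inner_sub_left]
    exact key _ _ le_rfl _ _

/-- WOT compactness of bounded sets, ultrafilter form. -/
theorem vn_exists_wotTendsto (U : Ultrafilter ι) (z : ι → H →L[ℂ] H) {C : ℝ}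
    (hb : ∀ᶠ i in (U : Filter ι), ‖z i‖ ≤ C) : ∃ z₀ : H →L[ℂ] H, WotTendsto (U : Filter ι) z z₀ := by
  have hex : ∀ ξ η : H, ∃ c : ℂ, ‖c‖ ≤ C * ‖ξ‖ * ‖η‖ ∧
      Tendsto (fun i => ⟪η, z i ξ⟫_ℂ) (U : Filter ι) (𝓝 c) := by
    intro ξ η
    have hcomp : IsCompact (Metric.closedBall (0 : ℂ) (C * ‖ξ‖ * ‖η‖)) := isCompact_closedBall _ _
    obtain ⟨c, hc, hlim⟩ := hcomp.ultrafilter_le_nhds (U.map fun i => ⟪η, z i ξ⟫_ℂ) (by
      rw [Ultrafilter.coe_map, le_principal_iff, mem_map]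
      filter_upwards [hb] with i hi
      rw [Set.mem_preimage, mem_closedBall_zero_iff]
      calc ‖⟪η, z i ξ⟫_ℂ‖ ≤ ‖η‖ * ‖z i ξ‖ := norm_inner_le_norm _ _
        _ ≤ ‖η‖ * (C * ‖ξ‖) := by
            gcongr
            exact ((z i).le_opNorm ξ).trans (by gcongr)
        _ = C * ‖ξ‖ * ‖η‖ := by ring)
    exact ⟨c, mem_closedBall_zero_iff.1 hc, hlim⟩
  choose B hB hlim using hex
  obtain ⟨a, ha⟩ := vn_exists_of_form B C
    (fun ξ ξ' η => tendsto_nhds_unique (hlim (ξ + ξ') η)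
      (by simpa [inner_add_right] using (hlim ξ η).add (hlim ξ' η)))
    (fun c ξ η => tendsto_nhds_unique (hlim (c • ξ) η)
      (by simpa [inner_smul_right] using (hlim ξ η).const_mul c))
    (fun ξ η η' => tendsto_nhds_unique (hlim ξ (η + η'))
      (by simpa [inner_add_left] using (hlim ξ η).add (hlim ξ η')))
    (fun c ξ η => tendsto_nhds_unique (hlim ξ (c • η))
      (by simpa [inner_smul_left, mul_comm] using (hlim ξ η).const_mul ((starRingEnd ℂ) c)))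
    hB
  refine ⟨a, fun ξ η => ?_⟩
  rw [ha]
  exact hlim ξ η

open Classical in
/-- The WOT limit of a family of operators along an ultrafilter (junk value `0` if there is none;
it exists as soon as the family is eventually bounded, `vn_wotLim_spec`). -/
noncomputable def vn_wotLim (U : Ultrafilter ι) (z : ι → H →L[ℂ] H) : H →L[ℂ] H :=
  if h : ∃ z₀ : H →L[ℂ] H, WotTendsto (U : Filter ι) z z₀ then h.choose else 0

theorem vn_wotLim_spec (U : Ultrafilter ι) (z : ι → H →L[ℂ] H) {C : ℝ}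
    (hb : ∀ᶠ i in (U : Filter ι), ‖z i‖ ≤ C) : WotTendsto (U : Filter ι) z (vn_wotLim U z) := by
  have h := vn_exists_wotTendsto U z hb
  rw [vn_wotLim, dif_pos h]
  exact h.choose_spec

theorem vn_wotLim_eq (U : Ultrafilter ι) (h : WotTendsto (U : Filter ι) z z₀) :
    vn_wotLim U z = z₀ := by
  have h' : ∃ z₀ : H →L[ℂ] H, WotTendsto (U : Filter ι) z z₀ := ⟨z₀, h⟩
  rw [vn_wotLim, dif_pos h']
  exact h'.choose_spec.unique h

/-! ### SOT convergence -/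

namespace SotTendsto

theorem wotTendsto (hz : SotTendsto l z z₀) : WotTendsto l z z₀ :=
  fun ξ _ => tendsto_const_nhds.inner (hz ξ)

theorem const (a : H →L[ℂ] H) : SotTendsto l (fun _ => a) a := fun _ => tendsto_const_nhds

theorem add (hz : SotTendsto l z z₀) (hw : SotTendsto l w w₀) :
    SotTendsto l (fun i => z i + w i) (z₀ + w₀) := by
  intro ξ
  simpa using (hz ξ).add (hw ξ)

theorem neg (hz : SotTendsto l z z₀) : SotTendsto l (fun i => - z i) (- z₀) := by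
  intro ξ
  simpa using (hz ξ).neg

theorem sub (hz : SotTendsto l z z₀) (hw : SotTendsto l w w₀) :
    SotTendsto l (fun i => z i - w i) (z₀ - w₀) := by
  intro ξ
  simpa using (hz ξ).sub (hw ξ)

theorem const_smul (hz : SotTendsto l z z₀) (c : ℂ) :
    SotTendsto l (fun i => c • z i) (c • z₀) := by
  intro ξ
  simpa using (hz ξ).const_smul c

theorem sum {κ : Type*} (s : Finset κ) {z : κ → ι → H →L[ℂ] H} {z₀ : κ → H →L[ℂ] H}
    (h : ∀ k ∈ s, SotTendsto l (z k) (z₀ k)) :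
    SotTendsto l (fun i => ∑ k ∈ s, z k i) (∑ k ∈ s, z₀ k) := by
  intro ξ
  simpa [ContinuousLinearMap.sum_apply] using tendsto_finsetSum s (fun k hk => h k hk ξ)

theorem mul_left (hz : SotTendsto l z z₀) (a : H →L[ℂ] H) :
    SotTendsto l (fun i => a * z i) (a * z₀) := by
  intro ξ
  exact (a.continuous.tendsto _).comp (hz ξ)

theorem mul_right (hz : SotTendsto l z z₀) (a : H →L[ℂ] H) :
    SotTendsto l (fun i => z i * a) (z₀ * a) := by
  intro ξ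
  simpa using hz (a ξ)

/-- Multiplication is jointly SOT continuous on bounded sets (only the left factor has to be
bounded). -/
theorem mul {C : ℝ} (hz : SotTendsto l z z₀) (hb : ∀ᶠ i in l, ‖z i‖ ≤ C)
    (hw : SotTendsto l w w₀) : SotTendsto l (fun i => z i * w i) (z₀ * w₀) := by
  intro ξ
  rw [tendsto_iff_norm_sub_tendsto_zero]
  have h1 : Tendsto (fun i => C * ‖w i ξ - w₀ ξ‖ + ‖z i (w₀ ξ) - z₀ (w₀ ξ)‖) l (𝓝 0) := by
    have a1 := (tendsto_iff_norm_sub_tendsto_zero.1 (hw ξ)).const_mul C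
    have a2 := tendsto_iff_norm_sub_tendsto_zero.1 (hz (w₀ ξ))
    simpa using a1.add a2
  refine squeeze_zero' (Eventually.of_forall fun i => norm_nonneg _) ?_ h1
  filter_upwards [hb] with i hi
  calc ‖(z i * w i) ξ - (z₀ * w₀) ξ‖
      = ‖z i (w i ξ - w₀ ξ) + (z i (w₀ ξ) - z₀ (w₀ ξ))‖ := by
        congr 1
        simp [map_sub]
    _ ≤ ‖z i (w i ξ - w₀ ξ)‖ + ‖z i (w₀ ξ) - z₀ (w₀ ξ)‖ := norm_add_le _ _
    _ ≤ C * ‖w i ξ - w₀ ξ‖ + ‖z i (w₀ ξ) - z₀ (w₀ ξ)‖ := by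
        gcongr
        exact ((z i).le_opNorm _).trans (by gcongr)

/-- `zᵢ → z₀`, `wᵢ → w₀` strongly implies `zᵢ* wᵢ → z₀* w₀` weakly. -/
theorem wot_star_mul (hz : SotTendsto l z z₀) (hw : SotTendsto l w w₀) :
    WotTendsto l (fun i => star (z i) * w i) (star z₀ * w₀) := by
  intro ξ η
  simpa [ContinuousLinearMap.star_eq_adjoint, ContinuousLinearMap.adjoint_inner_right]
    using (hz η).inner (hw ξ)

theorem congr' (hz : SotTendsto l z z₀) (h : z =ᶠ[l] w) : SotTendsto l w z₀ := by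
  intro ξ
  refine (hz ξ).congr' ?_
  filter_upwards [h] with i hi
  rw [hi]

theorem mono_left {l' : Filter ι} (hz : SotTendsto l z z₀) (h : l' ≤ l) : SotTendsto l' z z₀ :=
  fun ξ => (hz ξ).mono_left h

theorem comp {κ : Type*} {l' : Filter κ} {f : κ → ι} (hz : SotTendsto l z z₀)
    (hf : Tendsto f l' l) : SotTendsto l' (fun k => z (f k)) z₀ :=
  fun ξ => (hz ξ).comp hf

theorem unique [l.NeBot] (h₁ : SotTendsto l z z₀) (h₂ : SotTendsto l z w₀) : z₀ = w₀ :=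
  h₁.wotTendsto.unique h₂.wotTendsto

end SotTendsto

/-- Norm convergence implies SOT convergence. -/
theorem vn_sotTendsto_of_tendsto (h : Tendsto z l (𝓝 z₀)) : SotTendsto l z z₀ := by
  intro ξ
  exact ((ContinuousLinearMap.apply ℂ H ξ).continuous.tendsto z₀).comp h

/-- A bounded family which converges on a dense set of vectors converges SOT. -/
theorem vn_sotTendsto_of_dense {C : ℝ} (hb : ∀ᶠ i in l, ‖z i‖ ≤ C) {D : Set H} (hD : Dense D)
    (h : ∀ ξ ∈ D, Tendsto (fun i => z i ξ) l (𝓝 (z₀ ξ))) : SotTendsto l z z₀ := by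
  refine vn_tendsto_of_dense_aux (fun i ξ => z i ξ) (fun ξ => z₀ ξ) C ‖z₀‖ ?_ ?_ hD h
  · filter_upwards [hb] with i hi x y
    rw [← map_sub]
    exact ((z i).le_opNorm _).trans (by gcongr)
  · intro x y
    rw [← map_sub]
    exact z₀.le_opNorm _

/-- For a family of positive operators bounded in norm: WOT convergence to `0` implies SOT
convergence to `0`. -/
theorem vn_sotTendsto_zero_of_wot {C : ℝ} (hpos : ∀ᶠ i in l, 0 ≤ z i) (hb : ∀ᶠ i in l, ‖z i‖ ≤ C)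
    (h : WotTendsto l z 0) : SotTendsto l z 0 := by
  intro ξ
  have h1 : Tendsto (fun i => C * (⟪ξ, z i ξ⟫_ℂ).re) l (𝓝 0) := by
    have := ((Complex.continuous_re.tendsto _).comp (h ξ ξ)).const_mul C
    simpa using this
  have h2 : Tendsto (fun i => ‖z i ξ‖ ^ 2) l (𝓝 0) := by
    refine squeeze_zero' (Eventually.of_forall fun i => by positivity) ?_ h1
    filter_upwards [hpos, hb] with i hi hbi
    refine (vn_norm_sq_apply_le hi ξ).trans ?_
    have : 0 ≤ (⟪ξ, z i ξ⟫_ℂ).re := (Complex.le_def.1 (vn_nonneg_iff.1 hi ξ)).1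
    gcongr
  have h3 : Tendsto (fun i => ‖z i ξ‖) l (𝓝 0) := by
    have := h2.sqrt
    simpa [Real.sqrt_sq (norm_nonneg _)] using this
  simpa using tendsto_zero_iff_norm_tendsto_zero.2 h3

end Claimed.Agent.R302
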