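import Claimed.Agent.R302.VN.Wot

/-!
# R302 / VN toolkit, file 2: bounded monotone nets of operators

Owner: helper268.  A monotone (for the Loewner order) net of operators which is bounded above converges
strongly to its least upper bound.
-/

set_option autoImplicit false
set_option linter.unusedSectionVars false

open scoped InnerProductSpace ComplexOrder
open Filter Topology

namespace Claimed.Agent.R302

variable {H : Type*} [NormedAddCommGroup H] [InnerProductSpace ℂ H] [CompleteSpace H]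

/-- For `0 ≤ a ≤ b`: `‖a‖ ≤ ‖b‖`. -/
theorem vn_norm_le_norm_of_le {a b : H →L[ℂ] H} (ha : 0 ≤ a) (hab : a ≤ b) : ‖a‖ ≤ ‖b‖ :=
  CStarAlgebra.norm_le_norm_of_nonneg_of_le ha hab

/-- The real quadratic form is monotone. -/
theorem vn_re_inner_le_of_le {a b : H →L[ℂ] H} (hab : a ≤ b) (ξ : H) :
    (⟪ξ, a ξ⟫_ℂ).re ≤ (⟪ξ, b ξ⟫_ℂ).re := by
  have h := (Complex.le_def.1 (vn_nonneg_iff.1 (sub_nonneg.2 hab) ξ)).1
  simp only [ContinuousLinearMap.sub_apply, inner_sub_right, Complex.sub_re, Complex.zero_re] at h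
  linarith

theorem vn_re_inner_nonneg {a : H →L[ℂ] H} (ha : 0 ≤ a) (ξ : H) : 0 ≤ (⟪ξ, a ξ⟫_ℂ).re :=
  (Complex.le_def.1 (vn_nonneg_iff.1 ha ξ)).1

/-- For a family of positive operators bounded in norm: convergence of the quadratic forms to `0`
implies SOT convergence to `0`. -/
theorem vn_sotTendsto_zero_of_quad {ι : Type*} {l : Filter ι} {z : ι → H →L[ℂ] H} {C : ℝ}
    (hpos : ∀ᶠ i in l, 0 ≤ z i) (hb : ∀ᶠ i in l, ‖z i‖ ≤ C)
    (h : ∀ ξ : H, Tendsto (fun i => (⟪ξ, z i ξ⟫_ℂ).re) l (𝓝 0)) : SotTendsto l z 0 := by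
  intro ξ
  have h1 : Tendsto (fun i => C * (⟪ξ, z i ξ⟫_ℂ).re) l (𝓝 0) := by
    simpa using (h ξ).const_mul C
  have h2 : Tendsto (fun i => ‖z i ξ‖ ^ 2) l (𝓝 0) := by
    refine squeeze_zero' (Eventually.of_forall fun i => by positivity) ?_ h1
    filter_upwards [hpos, hb] with i hi hbi
    refine (vn_norm_sq_apply_le hi ξ).trans ?_
    have : 0 ≤ (⟪ξ, z i ξ⟫_ℂ).re := vn_re_inner_nonneg hi ξ
    gcongr
  have h3 : Tendsto (fun i => ‖z i ξ‖) l (𝓝 0) := by
    have := h2.sqrt
    simpa [Real.sqrt_sq (norm_nonneg _)] using this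
  simpa using tendsto_zero_iff_norm_tendsto_zero.2 h3

variable {ι : Type*} [Preorder ι] [IsDirected ι (· ≤ ·)] [Nonempty ι]

/-- If a monotone net converges WOT along some proper filter finer than `atTop`, the limit is its least
upper bound and the net converges strongly. -/
theorem vn_mono_aux {z : ι → H →L[ℂ] H} (hz : Monotone z) {s : H →L[ℂ] H} {l : Filter ι} [l.NeBot]
    (hl : l ≤ atTop) (h : WotTendsto l z s) : IsLUB (Set.range z) s ∧ SotTendsto atTop z s := by
  have hub : ∀ j, z j ≤ s := fun j =>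
    h.const_le (((eventually_ge_atTop j).filter_mono hl).mono fun i hi => hz hi)
  refine ⟨⟨?_, ?_⟩, ?_⟩
  · rintro _ ⟨j, rfl⟩
    exact hub j
  · intro c hc
    exact h.le_const (Eventually.of_forall fun i => hc ⟨i, rfl⟩)
  · obtain ⟨i₀⟩ := ‹Nonempty ι›
    have hd : SotTendsto atTop (fun i => s - z i) 0 := by
      refine vn_sotTendsto_zero_of_quad (C := ‖s - z i₀‖)
        (Eventually.of_forall fun i => sub_nonneg.2 (hub i)) ?_ ?_
      · filter_upwards [eventually_ge_atTop i₀] with i hi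
        exact vn_norm_le_norm_of_le (sub_nonneg.2 (hub i)) (sub_le_sub_left (hz hi) s)
      · intro ξ
        have hl0 : Tendsto (fun i => (⟪ξ, (s - z i) ξ⟫_ℂ).re) l (𝓝 0) := by
          have := (Complex.continuous_re.tendsto _).comp (((WotTendsto.const s).sub h) ξ ξ)
          simpa [Function.comp_def] using this
        rw [Metric.tendsto_nhds]
        intro ε hε
        obtain ⟨i₁, hi₁⟩ := ((Metric.tendsto_nhds.1 hl0) ε hε).exists
        filter_upwards [eventually_ge_atTop i₁] with i hi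
        rw [Real.dist_eq, sub_zero] at hi₁ ⊢
        have a1 : 0 ≤ (⟪ξ, (s - z i) ξ⟫_ℂ).re := vn_re_inner_nonneg (sub_nonneg.2 (hub i)) ξ
        have a2 : (⟪ξ, (s - z i) ξ⟫_ℂ).re ≤ (⟪ξ, (s - z i₁) ξ⟫_ℂ).re :=
          vn_re_inner_le_of_le (sub_le_sub_left (hz hi) s) ξ
        rw [abs_of_nonneg a1]
        exact lt_of_le_of_lt a2 (lt_of_le_of_lt (le_abs_self _) hi₁)
    have := (SotTendsto.const (l := atTop) s).sub hd
    simpa using this

/-- **Vigier's theorem.** A monotone net bounded above has a least upper bound, to which it converges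
strongly. -/
theorem vn_exists_isLUB_sot (z : ι → H →L[ℂ] H) (hz : Monotone z) (hb : BddAbove (Set.range z)) :
    ∃ s : H →L[ℂ] H, IsLUB (Set.range z) s ∧ SotTendsto atTop z s := by
  obtain ⟨c, hc⟩ := hb
  obtain ⟨i₀⟩ := ‹Nonempty ι›
  have hbd : ∀ᶠ i in (atTop : Filter ι), ‖z i‖ ≤ ‖c - z i₀‖ + ‖z i₀‖ := by
    filter_upwards [eventually_ge_atTop i₀] with i hi
    have h1 : ‖z i - z i₀‖ ≤ ‖c - z i₀‖ :=
      vn_norm_le_norm_of_le (sub_nonneg.2 (hz hi)) (sub_le_sub_right (hc ⟨i, rfl⟩) _)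
    calc ‖z i‖ = ‖(z i - z i₀) + z i₀‖ := by rw [sub_add_cancel]
      _ ≤ ‖z i - z i₀‖ + ‖z i₀‖ := norm_add_le _ _
      _ ≤ _ := by gcongr
  obtain ⟨s, hs⟩ := vn_exists_wotTendsto (Ultrafilter.of atTop) z
    (hbd.filter_mono (Ultrafilter.of_le atTop))
  exact ⟨s, vn_mono_aux hz (Ultrafilter.of_le atTop) hs⟩

/-- If a monotone net converges WOT, the limit is its least upper bound and the convergence is
strong. -/
theorem vn_isLUB_of_wotTendsto {z : ι → H →L[ℂ] H} (hz : Monotone z) {s : H →L[ℂ] H}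
    (h : WotTendsto atTop z s) : IsLUB (Set.range z) s ∧ SotTendsto atTop z s :=
  vn_mono_aux hz le_rfl h

/-- The least upper bound of a monotone net is its strong limit. -/
theorem vn_sotTendsto_of_isLUB {z : ι → H →L[ℂ] H} (hz : Monotone z) {s : H →L[ℂ] H}
    (h : IsLUB (Set.range z) s) : SotTendsto atTop z s := by
  obtain ⟨s', hs', hlim⟩ := vn_exists_isLUB_sot z hz ⟨s, h.1⟩
  rwa [h.unique hs']

theorem vn_isLUB_neg_range {z : ι → H →L[ℂ] H} {s : H →L[ℂ] H} (h : IsGLB (Set.range z) s) :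
    IsLUB (Set.range fun i => - z i) (-s) := by
  constructor
  · rintro _ ⟨i, rfl⟩
    exact neg_le_neg (h.1 ⟨i, rfl⟩)
  · intro c hc
    rw [neg_le]
    refine h.2 ?_
    rintro _ ⟨i, rfl⟩
    rw [neg_le]
    exact hc ⟨i, rfl⟩

theorem vn_isGLB_of_neg_range {z : ι → H →L[ℂ] H} {s : H →L[ℂ] H}
    (h : IsLUB (Set.range fun i => - z i) s) : IsGLB (Set.range z) (-s) := by
  constructor
  · rintro _ ⟨i, rfl⟩
    rw [neg_le]
    exact h.1 ⟨i, rfl⟩
  · intro c hc
    rw [le_neg]
    refine h.2 ?_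
    rintro _ ⟨i, rfl⟩
    exact neg_le_neg (hc ⟨i, rfl⟩)

/-- An antitone net bounded below has a greatest lower bound, to which it converges strongly. -/
theorem vn_exists_isGLB_sot (z : ι → H →L[ℂ] H) (hz : Antitone z) (hb : BddBelow (Set.range z)) :
    ∃ s : H →L[ℂ] H, IsGLB (Set.range z) s ∧ SotTendsto atTop z s := by
  obtain ⟨c, hc⟩ := hb
  obtain ⟨s, hs, hlim⟩ := vn_exists_isLUB_sot (fun i => - z i) (fun i j hij => neg_le_neg (hz hij))
    ⟨-c, by rintro _ ⟨i, rfl⟩; exact neg_le_neg (hc ⟨i, rfl⟩)⟩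
  refine ⟨-s, vn_isGLB_of_neg_range hs, ?_⟩
  simpa using hlim.neg

theorem vn_sotTendsto_of_isGLB {z : ι → H →L[ℂ] H} (hz : Antitone z) {s : H →L[ℂ] H}
    (h : IsGLB (Set.range z) s) : SotTendsto atTop z s := by
  have := vn_sotTendsto_of_isLUB (z := fun i => - z i) (fun i j hij => neg_le_neg (hz hij))
    (vn_isLUB_neg_range h)
  simpa using this.neg

/-- The least upper bound of a monotone net in a von Neumann algebra belongs to it. -/
theorem vn_isLUB_mem (M : VonNeumannAlgebra H) {z : ι → H →L[ℂ] H} (hz : Monotone z)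
    (hM : ∀ i, z i ∈ M) {s : H →L[ℂ] H} (h : IsLUB (Set.range z) s) : s ∈ M :=
  (vn_sotTendsto_of_isLUB hz h).wotTendsto.mem M (Eventually.of_forall hM)

/-- The least upper bound of a monotone net commutes with everything that commutes with the net. -/
theorem vn_isLUB_commute {z : ι → H →L[ℂ] H} (hz : Monotone z) {s y : H →L[ℂ] H}
    (h : IsLUB (Set.range z) s) (hy : ∀ i, Commute y (z i)) : Commute y s :=
  (vn_sotTendsto_of_isLUB hz h).wotTendsto.commute (Eventually.of_forall hy)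

/-- Sums of families of positive operators with bounded finite partial sums: the net of finite
partial sums converges strongly to its least upper bound. -/
theorem vn_exists_sum_sot {κ : Type*} (a : κ → H →L[ℂ] H) (ha : ∀ k, 0 ≤ a k) (c : H →L[ℂ] H)
    (hb : ∀ s : Finset κ, ∑ k ∈ s, a k ≤ c) :
    ∃ t : H →L[ℂ] H, IsLUB (Set.range fun s : Finset κ => ∑ k ∈ s, a k) t ∧
      SotTendsto atTop (fun s : Finset κ => ∑ k ∈ s, a k) t := by
  refine vn_exists_isLUB_sot (fun s : Finset κ => ∑ k ∈ s, a k) ?_ ⟨c, ?_⟩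
  · intro s t hst
    exact Finset.sum_le_sum_of_subset_of_nonneg hst (fun k _ _ => ha k)
  · rintro _ ⟨s, rfl⟩
    exact hb s

end Claimed.Agent.R302
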