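import Claimed.Agent.R302.VN.Proj

/-!
# R302 / VN toolkit, file 4a: spectral projections of selfadjoint operators

Owner: helper268.
* `vn_specGt z t = 1_{(t,∞)}(z)`  := range projection of `(z - t)₊`;
* `vn_specGe z t = 1_{[t,∞)}(z)`  := `1 - 1_{(-t,∞)}(-z)`;
* `vn_specAbsLe z ε = 1_{[-ε,ε]}(z)` := `1 - 1_{(ε²,∞)}(z²)`.
Scalars: `(t : ℂ) • (1 : H →L[ℂ] H)` is written `vn_sc t`.
-/

set_option autoImplicit false
set_option linter.unusedSectionVars false

open scoped InnerProductSpace ComplexOrder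
open Filter Topology

namespace Claimed.Agent.R302

variable {H : Type*} [NormedAddCommGroup H] [InnerProductSpace ℂ H] [CompleteSpace H]

/-- The scalar operator `t · 1`, `t` real. -/
noncomputable abbrev vn_sc (t : ℝ) : H →L[ℂ] H := (t : ℂ) • (1 : H →L[ℂ] H)

theorem vn_sc_eq_algebraMap (t : ℝ) : (vn_sc t : H →L[ℂ] H) = algebraMap ℝ (H →L[ℂ] H) t := by
  rw [Algebra.algebraMap_eq_smul_one, vn_sc, Complex.coe_smul]

theorem vn_sc_isSelfAdjoint (t : ℝ) : IsSelfAdjoint (vn_sc t : H →L[ℂ] H) := by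
  rw [vn_sc_eq_algebraMap]
  exact IsSelfAdjoint.algebraMap _ (IsSelfAdjoint.all t)

theorem vn_sc_commute (t : ℝ) (y : H →L[ℂ] H) : Commute (vn_sc t) y := by
  rw [vn_sc_eq_algebraMap]
  exact Algebra.commute_algebraMap_left t y

theorem vn_sc_nonneg {t : ℝ} (ht : 0 ≤ t) : (0 : H →L[ℂ] H) ≤ vn_sc t := by
  rw [vn_sc_eq_algebraMap]
  exact algebraMap_nonneg _ ht

theorem vn_sc_mono {s t : ℝ} (h : s ≤ t) : (vn_sc s : H →L[ℂ] H) ≤ vn_sc t := by
  rw [vn_sc_eq_algebraMap, vn_sc_eq_algebraMap]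
  exact algebraMap_mono _ h

theorem vn_sc_apply (t : ℝ) (ξ : H) : (vn_sc t : H →L[ℂ] H) ξ = (t : ℂ) • ξ := by simp

/-- `re ⟪ξ, (z - t) ξ⟫ = re ⟪ξ, z ξ⟫ - t ‖ξ‖²`. -/
theorem vn_re_inner_sub_sc (z : H →L[ℂ] H) (t : ℝ) (ξ : H) :
    (⟪ξ, (z - vn_sc t : H →L[ℂ] H) ξ⟫_ℂ).re = (⟪ξ, z ξ⟫_ℂ).re - t * ‖ξ‖ ^ 2 := by
  rw [ContinuousLinearMap.sub_apply, vn_sc_apply, inner_sub_right, inner_smul_right,
    inner_self_eq_norm_sq_to_K, Complex.sub_re]
  congr 1
  have : ((t : ℂ) * ((‖ξ‖ : ℂ)) ^ 2) = ((t * ‖ξ‖ ^ 2 : ℝ) : ℂ) := by push_cast; ring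
  erw [this]
  exact Complex.ofReal_re _

/-- For a positive operator bounded by `t`. -/
theorem vn_norm_le_of_le_sc {a : H →L[ℂ] H} (ha : 0 ≤ a) {t : ℝ} (ht : 0 ≤ t) (h : a ≤ vn_sc t) :
    ‖a‖ ≤ t := by
  rw [CStarAlgebra.norm_le_iff_le_algebraMap a ht ha, ← vn_sc_eq_algebraMap]
  exact h

/-- For `0 ≤ a`: `⟪ξ, a ξ⟫ = 0` implies `a ξ = 0`. -/
theorem vn_apply_eq_zero_of_inner {a : H →L[ℂ] H} (ha : 0 ≤ a) {ξ : H}
    (h : (⟪ξ, a ξ⟫_ℂ).re ≤ 0) : a ξ = 0 := by
  have h1 := vn_norm_sq_apply_le ha ξ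
  have h2 : ‖a ξ‖ ^ 2 ≤ 0 := h1.trans (mul_nonpos_of_nonneg_of_nonpos (norm_nonneg _) h)
  have h3 : ‖a ξ‖ = 0 := by
    have := sq_nonneg ‖a ξ‖
    exact pow_eq_zero_iff (n := 2) (by norm_num) |>.1 (le_antisymm h2 this)
  exact norm_eq_zero.1 h3

/-- Two commuting projections `e`, `f` such that no nonzero vector is fixed by `e` and killed by
`f` satisfy `e ≤ f`. -/
theorem vn_proj_le_of_commute {e f : H →L[ℂ] H} (he : IsStarProjection e) (hf : IsStarProjection f)
    (hc : Commute e f) (h : ∀ η : H, e η = η → f η = 0 → η = 0) : e ≤ f := by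
  rw [vn_proj_le_iff he hf]
  intro ξ hξ
  have h1 : (1 - f) ξ = 0 := by
    apply h
    · have : e ((1 - f) ξ) = (1 - f) (e ξ) := by
        rw [← vn_mul_apply, ← vn_mul_apply, ((Commute.one_right e).sub_right hc).eq]
      rw [this, hξ]
    · simp [vn_proj_apply_apply hf]
  have h2 : ξ - f ξ = 0 := by simpa using h1
  exact (sub_eq_zero.1 h2).symm

/-! ### Continuous functional calculus stays in the bicommutant -/

theorem vn_commute_cfc {y z : H →L[ℂ] H} (h : Commute y z) (f : ℝ → ℝ) :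
    Commute y (cfc f z) :=
  (h.symm.cfc_real f).symm

theorem vn_cfc_mem (M : VonNeumannAlgebra H) {z : H →L[ℂ] H} (hz : z ∈ M) (f : ℝ → ℝ) :
    cfc f z ∈ M := by
  rw [vn_mem_iff_commute]
  intro y hy
  exact vn_commute_cfc ((vn_mem_iff_commute M z).1 hz y hy) f

theorem vn_commute_sqrt {y z : H →L[ℂ] H} (h : Commute y z) : Commute y (CFC.sqrt z) :=
  (h.symm.cfcₙ_nnreal _).symm

theorem vn_commute_abs {y z : H →L[ℂ] H} (h : Commute y z) (h' : Commute y (star z)) :
    Commute y (CFC.abs z) :=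
  vn_commute_sqrt (h'.mul_right h)

theorem vn_sqrt_mem (M : VonNeumannAlgebra H) {z : H →L[ℂ] H} (hz : z ∈ M) : CFC.sqrt z ∈ M := by
  rw [vn_mem_iff_commute]
  intro y hy
  exact vn_commute_sqrt ((vn_mem_iff_commute M z).1 hz y hy)

theorem vn_abs_mem (M : VonNeumannAlgebra H) {z : H →L[ℂ] H} (hz : z ∈ M) : CFC.abs z ∈ M :=
  vn_sqrt_mem M (mul_mem (star_mem hz) hz)

/-- `‖|z| ξ‖ = ‖z ξ‖`. -/
theorem vn_norm_abs_apply (z : H →L[ℂ] H) (ξ : H) : ‖CFC.abs z ξ‖ = ‖z ξ‖ := by
  have hs : IsSelfAdjoint (CFC.abs z) := (CFC.abs_nonneg z).isSelfAdjoint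
  have h1 : ⟪CFC.abs z ξ, CFC.abs z ξ⟫_ℂ = ⟪z ξ, z ξ⟫_ℂ := by
    rw [← vn_inner_sa hs, ← vn_mul_apply, CFC.abs_mul_abs, vn_mul_apply, vn_inner_star]
  rw [inner_self_eq_norm_sq_to_K, inner_self_eq_norm_sq_to_K] at h1
  have h2 : ‖CFC.abs z ξ‖ ^ 2 = ‖z ξ‖ ^ 2 := by exact_mod_cast h1
  exact (pow_left_inj₀ (norm_nonneg _) (norm_nonneg _) (by norm_num)).1 h2

/-! ### `1_{(t,∞)}(z)` -/

/-- The spectral projection `1_{(t,∞)}(z)` of a selfadjoint operator `z`. -/
noncomputable def vn_specGt (z : H →L[ℂ] H) (t : ℝ) : H →L[ℂ] H :=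
  vn_rangeProj (cfc (fun s : ℝ => max (s - t) 0) z)

/-- The spectral projection `1_{[t,∞)}(z)` of a selfadjoint operator `z`. -/
noncomputable def vn_specGe (z : H →L[ℂ] H) (t : ℝ) : H →L[ℂ] H :=
  1 - vn_specGt (-z) (-t)

theorem vn_specGt_isStarProjection (z : H →L[ℂ] H) (t : ℝ) : IsStarProjection (vn_specGt z t) :=
  vn_rangeProj_isStarProjection _

theorem vn_specGe_isStarProjection (z : H →L[ℂ] H) (t : ℝ) : IsStarProjection (vn_specGe z t) :=
  (vn_specGt_isStarProjection _ _).one_sub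

theorem vn_commute_specGt {y z : H →L[ℂ] H} (h : Commute y z) (t : ℝ) :
    Commute y (vn_specGt z t) := by
  have h1 : Commute y (cfc (fun s : ℝ => max (s - t) 0) z) := vn_commute_cfc h _
  have h2 : IsSelfAdjoint (cfc (fun s : ℝ => max (s - t) 0) z) := cfc_predicate _ _
  exact vn_commute_rangeProj h1 (by rwa [h2.star_eq])

theorem vn_commute_specGe {y z : H →L[ℂ] H} (h : Commute y z) (t : ℝ) :
    Commute y (vn_specGe z t) :=
  (Commute.one_right y).sub_right (vn_commute_specGt h.neg_right _)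

theorem vn_specGt_mem (M : VonNeumannAlgebra H) {z : H →L[ℂ] H} (hz : z ∈ M) (t : ℝ) :
    vn_specGt z t ∈ M :=
  vn_rangeProj_mem M (vn_cfc_mem M hz _)

theorem vn_specGe_mem (M : VonNeumannAlgebra H) {z : H →L[ℂ] H} (hz : z ∈ M) (t : ℝ) :
    vn_specGe z t ∈ M :=
  sub_mem (one_mem _) (vn_specGt_mem M (neg_mem hz) _)

variable {z : H →L[ℂ] H}

/-- `(z - t) 1_{(t,∞)}(z) = (z - t)₊`. -/
theorem vn_sub_mul_specGt (hz : IsSelfAdjoint z) (t : ℝ) :
    (z - vn_sc t) * vn_specGt z t = cfc (fun s : ℝ => max (s - t) 0) z ∧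
    (z - vn_sc t) * (1 - vn_specGt z t) = - cfc (fun s : ℝ => max (t - s) 0) z := by
  set P := cfc (fun s : ℝ => max (s - t) 0) z with hP
  set N := cfc (fun s : ℝ => max (t - s) 0) z with hN
  have hPs : IsSelfAdjoint P := cfc_predicate _ _
  have h1 : z - vn_sc t = P - N := by
    rw [hP, hN, ← cfc_sub (fun s : ℝ => max (s - t) 0) (fun s : ℝ => max (t - s) 0) z]
    have e : (fun s : ℝ => max (s - t) 0 - max (t - s) 0) = fun s : ℝ => s - t := by
      funext s
      rcases le_total s t with h | h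
      · rw [max_eq_right (by linarith), max_eq_left (by linarith)]; ring
      · rw [max_eq_left (by linarith), max_eq_right (by linarith)]; ring
    rw [e, cfc_sub (fun s : ℝ => s) (fun _ : ℝ => t) z, cfc_id' ℝ z, cfc_const t z,
      vn_sc_eq_algebraMap]
  have h2 : N * P = 0 := by
    rw [hP, hN, ← cfc_mul (fun s : ℝ => max (t - s) 0) (fun s : ℝ => max (s - t) 0) z]
    have e : (fun s : ℝ => max (t - s) 0 * max (s - t) 0) = fun _ : ℝ => (0 : ℝ) := by
      funext s
      rcases le_total s t with h | h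
      · rw [max_eq_right (a := s - t) (by linarith), mul_zero]
      · rw [max_eq_right (a := t - s) (by linarith), zero_mul]
    rw [e, cfc_const (0 : ℝ) z, map_zero]
  have h3 : N * vn_specGt z t = 0 := vn_mul_rangeProj_eq_zero_iff.2 h2
  have h4 : P * vn_specGt z t = P := by
    have := vn_mul_rangeProj_star P
    rwa [hPs.star_eq] at this
  constructor
  · rw [h1, sub_mul, h3, h4, sub_zero]
  · rw [h1, mul_sub, mul_one, sub_mul, h3, h4]
    abel

/-- `(z - t) 1_{(t,∞)}(z) ≥ 0`. -/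
theorem vn_specGt_nonneg (hz : IsSelfAdjoint z) (t : ℝ) : 0 ≤ (z - vn_sc t) * vn_specGt z t := by
  rw [(vn_sub_mul_specGt hz t).1]
  exact cfc_nonneg fun s _ => le_max_right _ _

/-- `(z - t) (1 - 1_{(t,∞)}(z)) ≤ 0`. -/
theorem vn_specGt_compl_nonpos (hz : IsSelfAdjoint z) (t : ℝ) :
    (z - vn_sc t) * (1 - vn_specGt z t) ≤ 0 := by
  rw [(vn_sub_mul_specGt hz t).2, neg_nonpos]
  exact cfc_nonneg fun s _ => le_max_right _ _

theorem vn_neg_sub_sc_neg (z : H →L[ℂ] H) (t : ℝ) : -z - vn_sc (-t) = -(z - vn_sc t) := by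
  simp only [vn_sc, Complex.ofReal_neg, neg_smul]
  abel

/-- `(z - t) 1_{[t,∞)}(z) ≥ 0`. -/
theorem vn_specGe_nonneg (hz : IsSelfAdjoint z) (t : ℝ) : 0 ≤ (z - vn_sc t) * vn_specGe z t := by
  have h := vn_specGt_compl_nonpos hz.neg (-t)
  rw [vn_neg_sub_sc_neg, neg_mul, neg_nonpos] at h
  exact h

/-- `(z - t) (1 - 1_{[t,∞)}(z)) ≤ 0`. -/
theorem vn_specGe_compl_nonpos (hz : IsSelfAdjoint z) (t : ℝ) :
    (z - vn_sc t) * (1 - vn_specGe z t) ≤ 0 := by
  have h := vn_specGt_nonneg hz.neg (-t)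
  rw [vn_neg_sub_sc_neg, neg_mul, neg_nonneg] at h
  rwa [vn_specGe, sub_sub_cancel]

/-- Vector form: on the range of `1_{(t,∞)}(z)` the quadratic form of `z` is `> t`. -/
theorem vn_specGt_strict (hz : IsSelfAdjoint z) (t : ℝ) {ξ : H} (hξ : vn_specGt z t ξ = ξ)
    (h0 : ξ ≠ 0) : t * ‖ξ‖ ^ 2 < (⟪ξ, z ξ⟫_ℂ).re := by
  by_contra hcon
  rw [not_lt] at hcon
  set P := cfc (fun s : ℝ => max (s - t) 0) z with hP
  have hP0 : 0 ≤ P := cfc_nonneg fun s _ => le_max_right _ _
  have h1 : P ξ = (z - vn_sc t : H →L[ℂ] H) ξ := by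
    rw [hP, ← (vn_sub_mul_specGt hz t).1, vn_mul_apply, hξ]
  have h2 : (⟪ξ, P ξ⟫_ℂ).re ≤ 0 := by
    rw [h1, vn_re_inner_sub_sc]
    linarith
  have h3 : P ξ = 0 := vn_apply_eq_zero_of_inner hP0 h2
  rw [vn_apply_eq_zero_iff, hP0.isSelfAdjoint.star_eq] at h3
  exact h0 (hξ.symm.trans h3)

/-- Vector form: on the range of `1 - 1_{(t,∞)}(z)` the quadratic form of `z` is `≤ t`. -/
theorem vn_specGt_compl_le (hz : IsSelfAdjoint z) (t : ℝ) {ξ : H} (hξ : vn_specGt z t ξ = 0) :
    (⟪ξ, z ξ⟫_ℂ).re ≤ t * ‖ξ‖ ^ 2 := by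
  have h1 := vn_re_inner_nonneg (neg_nonneg.2 (vn_specGt_compl_nonpos hz t)) ξ
  have h2 : ((z - vn_sc t) * (1 - vn_specGt z t) : H →L[ℂ] H) ξ = (z - vn_sc t : H →L[ℂ] H) ξ := by
    have : (1 - vn_specGt z t) ξ = ξ := by simp [hξ]
    rw [vn_mul_apply, this]
  rw [ContinuousLinearMap.neg_apply, h2, inner_neg_right, Complex.neg_re, vn_re_inner_sub_sc] at h1
  linarith

/-- Vector form: on the range of `1_{[t,∞)}(z)` the quadratic form of `z` is `≥ t`. -/
theorem vn_specGe_le (hz : IsSelfAdjoint z) (t : ℝ) {ξ : H} (hξ : vn_specGe z t ξ = ξ) :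
    t * ‖ξ‖ ^ 2 ≤ (⟪ξ, z ξ⟫_ℂ).re := by
  have h1 : vn_specGt (-z) (-t) ξ = 0 := by
    simpa [vn_specGe, sub_eq_self] using hξ
  have h2 := vn_specGt_compl_le hz.neg (-t) h1
  simp only [ContinuousLinearMap.neg_apply, inner_neg_right, Complex.neg_re] at h2
  linarith

/-- Vector form: on the range of `1 - 1_{[t,∞)}(z)` the quadratic form of `z` is `< t`. -/
theorem vn_specGe_compl_strict (hz : IsSelfAdjoint z) (t : ℝ) {ξ : H} (hξ : vn_specGe z t ξ = 0)
    (h0 : ξ ≠ 0) : (⟪ξ, z ξ⟫_ℂ).re < t * ‖ξ‖ ^ 2 := by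
  have h1 : vn_specGt (-z) (-t) ξ = ξ := by
    have : ξ - vn_specGt (-z) (-t) ξ = 0 := by simpa [vn_specGe] using hξ
    exact (sub_eq_zero.1 this).symm
  have h2 := vn_specGt_strict hz.neg (-t) h1 h0
  simp only [ContinuousLinearMap.neg_apply, inner_neg_right, Complex.neg_re] at h2
  linarith

/-- `1_{(t,∞)}(z)` is the smallest projection `e` commuting with `z` with `(z - t)(1 - e) ≤ 0`. -/
theorem vn_specGt_le_of (hz : IsSelfAdjoint z) (t : ℝ) {e : H →L[ℂ] H} (he : IsStarProjection e)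
    (hc : Commute e z) (h : (z - vn_sc t) * (1 - e) ≤ 0) : vn_specGt z t ≤ e := by
  refine vn_proj_le_of_commute (vn_specGt_isStarProjection z t) he (vn_commute_specGt hc t).symm ?_
  intro η h1 h2
  by_contra h0
  have h3 := vn_specGt_strict hz t h1 h0
  have h4 := vn_re_inner_nonneg (neg_nonneg.2 h) η
  have h5 : ((z - vn_sc t) * (1 - e) : H →L[ℂ] H) η = (z - vn_sc t : H →L[ℂ] H) η := by
    have : (1 - e) η = η := by simp [h2]
    rw [vn_mul_apply, this]
  rw [ContinuousLinearMap.neg_apply, h5, inner_neg_right, Complex.neg_re, vn_re_inner_sub_sc] at h4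
  linarith

/-- `1_{[t,∞)}(z)` is the largest projection `e` commuting with `z` with `(z - t) e ≥ 0`. -/
theorem vn_le_specGe_of (hz : IsSelfAdjoint z) (t : ℝ) {e : H →L[ℂ] H} (he : IsStarProjection e)
    (hc : Commute e z) (h : 0 ≤ (z - vn_sc t) * e) : e ≤ vn_specGe z t := by
  rw [vn_specGe, le_sub_comm]
  refine vn_specGt_le_of hz.neg (-t) he.one_sub ((Commute.one_left _).sub_left hc.neg_right) ?_
  rw [vn_neg_sub_sc_neg, sub_sub_cancel, neg_mul, neg_nonpos]
  exact h

theorem vn_commute_self_specGt (z : H →L[ℂ] H) (t : ℝ) : Commute z (vn_specGt z t) :=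
  vn_commute_specGt (Commute.refl z) t

theorem vn_commute_self_specGe (z : H →L[ℂ] H) (t : ℝ) : Commute z (vn_specGe z t) :=
  vn_commute_specGe (Commute.refl z) t

theorem vn_specGt_le_specGe (hz : IsSelfAdjoint z) (t : ℝ) : vn_specGt z t ≤ vn_specGe z t :=
  vn_le_specGe_of hz t (vn_specGt_isStarProjection z t) (vn_commute_self_specGt z t).symm
    (vn_specGt_nonneg hz t)

theorem vn_norm_sq_pos {η : H} (h : η ≠ 0) : 0 < ‖η‖ ^ 2 := by
  have := norm_pos_iff.2 h
  positivity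

theorem vn_specGe_le_specGt (hz : IsSelfAdjoint z) {s t : ℝ} (h : s < t) :
    vn_specGe z t ≤ vn_specGt z s := by
  refine vn_proj_le_of_commute (vn_specGe_isStarProjection z t) (vn_specGt_isStarProjection z s)
    (vn_commute_specGt (vn_commute_self_specGe z t).symm s) ?_
  intro η h1 h2
  by_contra h0
  have h3 := vn_specGe_le hz t h1
  have h4 := vn_specGt_compl_le hz s h2
  have h5 := vn_norm_sq_pos h0
  nlinarith

theorem vn_specGt_anti (hz : IsSelfAdjoint z) {s t : ℝ} (h : s ≤ t) :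
    vn_specGt z t ≤ vn_specGt z s := by
  refine vn_proj_le_of_commute (vn_specGt_isStarProjection z t) (vn_specGt_isStarProjection z s)
    (vn_commute_specGt (vn_commute_self_specGt z t).symm s) ?_
  intro η h1 h2
  by_contra h0
  have h3 := vn_specGt_strict hz t h1 h0
  have h4 := vn_specGt_compl_le hz s h2
  have h5 := vn_norm_sq_pos h0
  nlinarith

theorem vn_specGe_anti (hz : IsSelfAdjoint z) {s t : ℝ} (h : s ≤ t) :
    vn_specGe z t ≤ vn_specGe z s := by
  refine vn_proj_le_of_commute (vn_specGe_isStarProjection z t) (vn_specGe_isStarProjection z s)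
    (vn_commute_specGe (vn_commute_self_specGe z t).symm s) ?_
  intro η h1 h2
  by_contra h0
  have h3 := vn_specGe_le hz t h1
  have h4 := vn_specGe_compl_strict hz s h2 h0
  have h5 := vn_norm_sq_pos h0
  nlinarith

theorem vn_specGt_eq_zero (hz : IsSelfAdjoint z) {t : ℝ} (h : z ≤ vn_sc t) : vn_specGt z t = 0 := by
  ext ξ
  by_contra h0
  have h1 := vn_specGt_strict hz t (vn_proj_apply_apply (vn_specGt_isStarProjection z t) ξ) h0
  have h2 := vn_re_inner_nonneg (sub_nonneg.2 h) (vn_specGt z t ξ)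
  have h3 : (vn_sc t - z : H →L[ℂ] H) = -(z - vn_sc t) := by abel
  rw [h3, ContinuousLinearMap.neg_apply, inner_neg_right, Complex.neg_re, vn_re_inner_sub_sc] at h2
  linarith

theorem vn_specGe_eq_one (hz : IsSelfAdjoint z) {t : ℝ} (h : vn_sc t ≤ z) : vn_specGe z t = 1 := by
  rw [vn_specGe, vn_specGt_eq_zero hz.neg, sub_zero]
  have : (vn_sc (-t) : H →L[ℂ] H) = - vn_sc t := by simp [vn_sc]
  rw [this]
  exact neg_le_neg h

/-- For `a ≥ 0`: `1_{(0,∞)}(a)` is the support (range projection) of `a`. -/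
theorem vn_specGt_zero_of_nonneg {a : H →L[ℂ] H} (ha : 0 ≤ a) : vn_specGt a 0 = vn_rangeProj a := by
  have h : cfc (fun s : ℝ => max (s - 0) 0) a = a := by
    have h1 : cfc (fun s : ℝ => max (s - 0) 0) a = cfc (fun s : ℝ => s) a := by
      refine cfc_congr fun s hs => ?_
      have := spectrum_nonneg_of_nonneg ha hs
      simp [this]
    rw [h1, cfc_id' ℝ a ha.isSelfAdjoint]
  rw [vn_specGt, h]

/-- Monotonicity in the operator, for commuting operators. -/
theorem vn_specGt_mono_of_commute {a b : H →L[ℂ] H} (ha : IsSelfAdjoint a) (hb : IsSelfAdjoint b)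
    (hab : a ≤ b) (hc : Commute a b) (t : ℝ) : vn_specGt a t ≤ vn_specGt b t := by
  refine vn_proj_le_of_commute (vn_specGt_isStarProjection a t) (vn_specGt_isStarProjection b t)
    (vn_commute_specGt (vn_commute_specGt hc.symm t).symm t) ?_
  intro η h1 h2
  by_contra h0
  have h3 := vn_specGt_strict ha t h1 h0
  have h4 := vn_specGt_compl_le hb t h2
  have h5 := vn_re_inner_le_of_le hab η
  linarith

theorem vn_specGe_mono_of_commute {a b : H →L[ℂ] H} (ha : IsSelfAdjoint a) (hb : IsSelfAdjoint b)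
    (hab : a ≤ b) (hc : Commute a b) (t : ℝ) : vn_specGe a t ≤ vn_specGe b t := by
  refine vn_proj_le_of_commute (vn_specGe_isStarProjection a t) (vn_specGe_isStarProjection b t)
    (vn_commute_specGe (vn_commute_specGe hc.symm t).symm t) ?_
  intro η h1 h2
  by_contra h0
  have h3 := vn_specGe_le ha t h1
  have h4 := vn_specGe_compl_strict hb t h2 h0
  have h5 := vn_re_inner_le_of_le hab η
  linarith

/-- `1_{(t,∞)}(z) = sup_n 1_{[t + 1/(n+1), ∞)}(z)`. -/
theorem vn_specGt_eq_projSup (hz : IsSelfAdjoint z) (t : ℝ) :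
    vn_specGt z t = vn_projSup fun n : ℕ => vn_specGe z (t + 1 / (n + 1)) := by
  have hp : ∀ n : ℕ, IsStarProjection (vn_specGe z (t + 1 / (n + 1))) := fun n =>
    vn_specGe_isStarProjection _ _
  apply le_antisymm
  · refine vn_proj_le_of_commute (vn_specGt_isStarProjection z t) (vn_projSup_isStarProjection _)
      (vn_commute_projSup hp fun n => vn_commute_specGe (vn_commute_self_specGt z t).symm _) ?_
    intro η h1 h2
    by_contra h0
    have h3 := vn_specGt_strict hz t h1 h0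
    have h4 : ∀ n : ℕ, (⟪η, z η⟫_ℂ).re ≤ (t + 1 / ((n : ℝ) + 1)) * ‖η‖ ^ 2 := fun n =>
      (vn_specGe_compl_strict hz _ ((vn_projSup_apply_eq_zero_iff hp η).1 h2 n) h0).le
    have h5 : Tendsto (fun n : ℕ => (t + 1 / ((n : ℝ) + 1)) * ‖η‖ ^ 2) atTop (𝓝 ((t + 0) * ‖η‖ ^ 2)) :=
      (tendsto_const_nhds.add tendsto_one_div_add_atTop_nhds_zero_nat).mul_const _
    have h6 := ge_of_tendsto' h5 h4
    rw [add_zero] at h6
    linarith
  · rw [vn_projSup_le_iff hp (vn_specGt_isStarProjection z t)]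
    intro n
    exact vn_specGe_le_specGt hz (by
      have : (0 : ℝ) < 1 / ((n : ℝ) + 1) := by positivity
      linarith)

/-- Conjugation by a unitary. -/
theorem vn_specGt_conj {u : H →L[ℂ] H} (hu : u ∈ unitary (H →L[ℂ] H)) (hz : IsSelfAdjoint z)
    (t : ℝ) : vn_specGt (u * z * star u) t = u * vn_specGt z t * star u := by
  have h1 : star u * u = 1 := (Unitary.mem_iff.1 hu).1
  have h2 : u * star u = 1 := (Unitary.mem_iff.1 hu).2
  have key : ∀ (v w : H →L[ℂ] H), star v * v = 1 → v * star v = 1 → IsSelfAdjoint w →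
      vn_specGt (v * w * star v) t ≤ v * vn_specGt w t * star v := by
    intro v w hv hv' hw
    have hws : IsSelfAdjoint (v * w * star v) := by
      show star (v * w * star v) = v * w * star v
      simp [mul_assoc, hw.star_eq]
    refine vn_specGt_le_of hws t (vn_isStarProjection_conj hv (vn_specGt_isStarProjection w t)) ?_ ?_
    · show v * vn_specGt w t * star v * (v * w * star v) = v * w * star v * (v * vn_specGt w t * star v)
      calc v * vn_specGt w t * star v * (v * w * star v)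
          = v * vn_specGt w t * (star v * v) * w * star v := by simp only [mul_assoc]
        _ = v * (vn_specGt w t * w) * star v := by rw [hv]; simp only [mul_assoc, mul_one]
        _ = v * (w * vn_specGt w t) * star v := by rw [(vn_commute_self_specGt w t).eq]
        _ = v * w * (star v * v) * vn_specGt w t * star v := by rw [hv]; simp only [mul_assoc, mul_one]
        _ = v * w * star v * (v * vn_specGt w t * star v) := by simp only [mul_assoc]
    · have e : (v * w * star v - vn_sc t) * (1 - v * vn_specGt w t * star v)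
          = v * ((w - vn_sc t) * (1 - vn_specGt w t)) * star v := by
        have e1 : v * w * star v - vn_sc t = v * (w - vn_sc t) * star v := by
          rw [mul_sub, sub_mul, ← (vn_sc_commute t v).eq, mul_assoc (vn_sc t), hv', mul_one]
        have e2 : 1 - v * vn_specGt w t * star v = v * (1 - vn_specGt w t) * star v := by
          rw [mul_sub, sub_mul, mul_one, hv']
        rw [e1, e2]
        calc v * (w - vn_sc t) * star v * (v * (1 - vn_specGt w t) * star v)
            = v * (w - vn_sc t) * (star v * v) * (1 - vn_specGt w t) * star v := by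
              simp only [mul_assoc]
          _ = v * ((w - vn_sc t) * (1 - vn_specGt w t)) * star v := by
              rw [hv]; simp only [mul_assoc, mul_one]
      rw [e, ← neg_nonneg, ← neg_mul, ← mul_neg]
      exact star_right_conjugate_nonneg (neg_nonneg.2 (vn_specGt_compl_nonpos hw t)) v
  apply le_antisymm (key u z h1 h2 hz)
  have hzs : IsSelfAdjoint (u * z * star u) := by
    show star (u * z * star u) = u * z * star u
    simp [mul_assoc, hz.star_eq]
  have h3 := key (star u) (u * z * star u) (by rw [star_star]; exact h2)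
    (by rw [star_star]; exact h1) hzs
  rw [star_star] at h3
  have h4 : star u * (u * z * star u) * u = z := by
    calc star u * (u * z * star u) * u = (star u * u) * z * (star u * u) := by
          simp only [mul_assoc]
      _ = z := by rw [h1]; simp
  rw [h4] at h3
  have h5 := star_right_conjugate_le_conjugate h3 u
  calc u * vn_specGt z t * star u
      ≤ u * (star u * vn_specGt (u * z * star u) t * u) * star u := h5
    _ = (u * star u) * vn_specGt (u * z * star u) t * (u * star u) := by simp only [mul_assoc]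
    _ = vn_specGt (u * z * star u) t := by rw [h2]; simp

/-- Spectral band: for `s ≤ t`, `e = 1_{(s,∞)}(z) - 1_{(t,∞)}(z) = 1_{(s,t]}(z)` is a projection commuting
with `z` and `s e ≤ z e ≤ t e`. -/
theorem vn_specBand (hz : IsSelfAdjoint z) {s t : ℝ} (h : s ≤ t) :
    IsStarProjection (vn_specGt z s - vn_specGt z t) ∧
      vn_sc s * (vn_specGt z s - vn_specGt z t) ≤ z * (vn_specGt z s - vn_specGt z t) ∧
      z * (vn_specGt z s - vn_specGt z t) ≤ vn_sc t * (vn_specGt z s - vn_specGt z t) := by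
  set Es := vn_specGt z s with hEs
  set Et := vn_specGt z t with hEt
  have hs : IsStarProjection Es := vn_specGt_isStarProjection z s
  have ht : IsStarProjection Et := vn_specGt_isStarProjection z t
  have hle : Et ≤ Es := vn_specGt_anti hz h
  have hmul : Es * Et = Et := (ht.le_iff_mul_eq_right hs).1 hle
  have hmul' : Et * Es = Et := (ht.le_iff_mul_eq_left hs).1 hle
  have hcomm : Commute Es Et := by rw [commute_iff_eq, hmul, hmul']
  have e1 : Es - Et = Es * (1 - Et) := by rw [mul_sub, mul_one, hmul]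
  have e2 : Es - Et = (1 - Et) * Es := by rw [sub_mul, one_mul, hmul']
  refine ⟨(ht.le_iff_sub hs).1 hle, ?_, ?_⟩
  · rw [← sub_nonneg, ← sub_mul, e1, ← mul_assoc]
    refine Commute.mul_nonneg (vn_specGt_nonneg hz s) ht.one_sub.nonneg ?_
    refine (Commute.one_right _).sub_right ?_
    exact (((vn_commute_self_specGt z t).sub_left (vn_sc_commute s _)).mul_left hcomm)
  · rw [← sub_nonpos, ← sub_mul, e2, ← mul_assoc, ← neg_nonneg, ← neg_mul]
    refine Commute.mul_nonneg (neg_nonneg.2 (vn_specGt_compl_nonpos hz t)) hs.nonneg ?_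
    refine Commute.neg_left ?_
    refine Commute.mul_left ((vn_commute_self_specGt z s).sub_left (vn_sc_commute t _)) ?_
    exact (Commute.one_left _).sub_left hcomm.symm

end Claimed.Agent.R302
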